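import Vale.Agent.P083.Free.Defs

/-!
P083: prefix codes, frames of finite-dimensional spaces inside a C*-algebra with a Cuntz pair,
moving one frame to another, and compression.
-/

namespace Vale.Agent.P083.Free

open scoped InnerProductSpace

variable {B : Type*} [CStarAlgebra B] {t : Fin 2 → B}

/-- The isometries `t 0 ^ j * t 1`. -/
def code (t : Fin 2 → B) (j : ℕ) : B := t 0 ^ j * t 1

theorem IsPair.star_pow_mul_pow (h : IsPair t) (i : Fin 2) :
    ∀ a, star (t i ^ a) * t i ^ a = 1
  | 0 => by simp
  | a + 1 => by
    rw [pow_succ', star_mul, mul_assoc, ← mul_assoc (star (t i)), h.isometry, one_mul,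
      h.star_pow_mul_pow i a]

theorem IsPair.code_ite (h : IsPair t) (a b : ℕ) :
    star (code t a) * code t b = if a = b then 1 else 0 := by
  induction a generalizing b with
  | zero =>
    cases b with
    | zero => simp [code, h.isometry]
    | succ b =>
      simp only [code, pow_zero, one_mul, pow_succ', ← mul_assoc, h.orth.2, zero_mul,
        if_neg (Nat.zero_ne_add_one b)]
  | succ a ih =>
    cases b with
    | zero =>
      simp only [code, pow_zero, one_mul, pow_succ', star_mul, mul_assoc, h.orth.1, mul_zero,
        if_neg (Nat.succ_ne_zero a)]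
    | succ b =>
      have e : star (code t (a + 1)) * code t (b + 1) = star (code t a) * code t b := by
        simp only [code, pow_succ', star_mul, mul_assoc]
        rw [← mul_assoc (star (t 0)) (t 0), h.isometry, one_mul]
      rw [e, ih]
      simp

theorem IsPair.star_code_mul_pow (h : IsPair t) :
    ∀ a b, a < b → star (code t a) * t 0 ^ b = 0
  | 0, b + 1, _ => by simp [code, pow_succ', ← mul_assoc, h.orth.2]
  | a + 1, b + 1, hab => by
    have := h.star_code_mul_pow a b (Nat.lt_of_succ_lt_succ hab)
    simp only [code, pow_succ', star_mul, mul_assoc] at this ⊢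
    rw [← mul_assoc (star (t 0)) (t 0), h.isometry, one_mul, this]

theorem IsPair.sum_code (h : IsPair t) : ∀ K : ℕ,
    ∑ j ∈ Finset.range K, code t j * star (code t j) + t 0 ^ K * star (t 0 ^ K) = 1
  | 0 => by simp
  | K + 1 => by
    have e : t 0 ^ K * star (t 0 ^ K) =
        code t K * star (code t K) + t 0 ^ (K + 1) * star (t 0 ^ (K + 1)) := by
      have hA := congrArg (fun z => t 0 ^ K * z * star (t 0 ^ K)) h.sum_range
      simp only [mul_add, add_mul, mul_one, mul_assoc] at hA
      rw [← hA, code, pow_succ, star_mul, star_mul]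
      simp only [mul_assoc]
      abel
    rw [Finset.sum_range_succ, add_assoc, ← e, h.sum_code K]

/-- A partition of `1` into `K + 1` range projections. -/
def blocks (t : Fin 2 → B) (K : ℕ) (j : Fin (K + 1)) : B :=
  if (j : ℕ) < K then code t j else t 0 ^ K

theorem IsPair.blocks_ite (h : IsPair t) (K : ℕ) (i j : Fin (K + 1)) :
    star (blocks t K i) * blocks t K j = if i = j then 1 else 0 := by
  by_cases hij : i = j
  · subst hij
    rw [if_pos rfl, blocks]
    split_ifs
    · rw [h.code_ite, if_pos rfl]
    · exact h.star_pow_mul_pow _ _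
  · rw [if_neg hij, blocks, blocks]
    split_ifs with hi hj hj
    · rw [h.code_ite, if_neg fun e => hij (Fin.ext e)]
    · exact h.star_code_mul_pow _ _ hi
    · simpa using congrArg star (h.star_code_mul_pow _ _ hj)
    · exact absurd (Fin.ext (by omega)) hij

theorem IsPair.sum_blocks (h : IsPair t) (K : ℕ) :
    ∑ j, blocks t K j * star (blocks t K j) = 1 := by
  rw [Fin.sum_univ_castSucc]
  simp only [blocks, Fin.val_castSucc, Fin.is_lt, if_true, Fin.val_last, lt_irrefl, if_false]
  rw [← h.sum_code K, Finset.sum_range]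

section Frame

variable {E : Type*} [NormedAddCommGroup E] [InnerProductSpace ℂ E] [FiniteDimensional ℂ E]

/-- A linear map turning the inner product into `star (J x) * J y`, with an isometry orthogonal
to its image. -/
structure IsFrame (J : E →ₗ[ℂ] B) : Prop where
  inner : ∀ x y, star (J x) * J y = ⟪x, y⟫_ℂ • (1 : B)
  room : ∃ Z : B, star Z * Z = 1 ∧ ∀ x, star Z * J x = 0

/-- The range projection of a frame. -/
noncomputable def frameProj (J : E →ₗ[ℂ] B) : B :=
  ∑ a, J (stdOrthonormalBasis ℂ E a) * star (J (stdOrthonormalBasis ℂ E a))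

/-- An operator compressed to a frame. -/
noncomputable def frameMap (J : E →ₗ[ℂ] B) (A : E →L[ℂ] E) : B :=
  ∑ a, J (A (stdOrthonormalBasis ℂ E a)) * star (J (stdOrthonormalBasis ℂ E a))

variable {J : E →ₗ[ℂ] B}

theorem IsFrame.map_mul_eq (h : IsFrame J) (A : E →L[ℂ] E) (x : E) :
    frameMap J A * J x = J (A x) := by
  simp only [frameMap, Finset.sum_mul, mul_assoc, h.inner, mul_smul_comm, mul_one]
  conv_rhs => rw [← (stdOrthonormalBasis ℂ E).sum_repr' x]
  simp only [map_sum, map_smul]

theorem frameMap_one (J : E →ₗ[ℂ] B) : frameMap J 1 = frameProj J := rfl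

theorem IsFrame.proj_mul (h : IsFrame J) (x : E) : frameProj J * J x = J x := by
  rw [← frameMap_one, h.map_mul_eq]
  rfl

theorem star_frameProj (J : E →ₗ[ℂ] B) : star (frameProj J) = frameProj J := by
  simp [frameProj, star_sum]

/-- The compression as a star homomorphism. -/
noncomputable def IsFrame.hom (h : IsFrame J) : (E →L[ℂ] E) →⋆ₙₐ[ℂ] B where
  toFun := frameMap J
  map_smul' c A := by simp [frameMap, Finset.smul_sum]
  map_zero' := by simp [frameMap]
  map_add' A A' := by simp [frameMap, add_mul, Finset.sum_add_distrib]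
  map_mul' A A' := by
    conv_rhs => rw [frameMap.eq_def J A', Finset.mul_sum]
    simp only [← mul_assoc, h.map_mul_eq]
    rfl
  map_star' A := by
    set e := stdOrthonormalBasis ℂ E
    have expand : ∀ z, J z = ∑ b, ⟪e b, z⟫_ℂ • J (e b) := fun z => by
      conv_lhs => rw [← e.sum_repr' z]
      simp only [map_sum, map_smul]
    simp only [frameMap, star_sum, star_mul, star_star]
    change ∑ b, J ((star A) (e b)) * star (J (e b)) = ∑ a, J (e a) * star (J (A (e a)))
    simp only [expand ((star A) _), expand (A _), star_sum, star_smul, Finset.sum_mul,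
      Finset.mul_sum, smul_mul_assoc, mul_smul_comm]
    rw [Finset.sum_comm]
    refine Finset.sum_congr rfl fun a _ => Finset.sum_congr rfl fun b _ => ?_
    rw [ContinuousLinearMap.star_eq_adjoint, ContinuousLinearMap.adjoint_inner_right]
    congr 1
    exact (inner_conj_symm _ _).symm

theorem IsFrame.hom_apply (h : IsFrame J) (A : E →L[ℂ] E) : h.hom A = frameMap J A := rfl

theorem IsFrame.norm_frameMap_le (h : IsFrame J) (A : E →L[ℂ] E) : ‖frameMap J A‖ ≤ ‖A‖ :=
  NonUnitalStarAlgHom.norm_apply_le h.hom A

theorem IsFrame.proj_sq (h : IsFrame J) : frameProj J * frameProj J = frameProj J := by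
  rw [← frameMap_one, ← h.hom_apply, ← map_mul, one_mul]

/-- The complement of a frame with room is equivalent to `1`. -/
theorem IsFrame.exists_compl (h : IsFrame J) (ht : IsPair t) :
    ∃ R : B, star R * R = 1 ∧ R * star R = 1 - frameProj J := by
  obtain ⟨Z, hZ1, hZ⟩ := h.room
  set K := Module.finrank ℂ E
  set e := stdOrthonormalBasis ℂ E
  let G : Fin (K + 1) → B := fun j => if hj : (j : ℕ) < K then J (e ⟨j, hj⟩) else Z
  have hZ' : ∀ x, star (J x) * Z = 0 := fun x => by simpa using congrArg star (hZ x)
  have hG : ∀ i j, star (G i) * G j = if i = j then 1 else 0 := by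
    intro i j
    simp only [G]
    split_ifs with hi hj hij hij hj hij hij
    · subst hij; simp [h.inner]
    · have : (⟨i, hi⟩ : Fin K) ≠ ⟨j, hj⟩ := fun e' => hij (Fin.ext (by simpa using e'))
      simp [h.inner, e.orthonormal.2 this]
    · omega
    · exact hZ' _
    · omega
    · exact hZ _
    · exact hZ1
    · exact absurd (Fin.ext (by omega)) hij
  set q := ∑ j, G j * star (blocks t K j) with hq
  have hqq : star q * q = 1 := by
    simp only [hq, star_sum, star_mul, star_star, Finset.sum_mul, Finset.mul_sum]
    simp only [mul_assoc]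
    simp only [← mul_assoc (star (G _)) (G _), hG, ite_mul, one_mul, zero_mul, mul_ite, mul_zero,
      Finset.sum_ite_eq', Finset.mem_univ, if_true, ht.sum_blocks]
  have hqq' : q * star q = frameProj J + Z * star Z := by
    simp only [hq, star_sum, star_mul, star_star, Finset.sum_mul, Finset.mul_sum]
    simp only [mul_assoc]
    simp only [← mul_assoc (star (blocks t K _)) (blocks t K _), ht.blocks_ite, ite_mul, one_mul,
      zero_mul, mul_ite, mul_zero, Finset.sum_ite_eq', Finset.mem_univ, if_true]
    rw [Fin.sum_univ_castSucc]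
    simp [G, frameProj]
    rfl
  have hpZ : frameProj J * Z = 0 := by simp [frameProj, Finset.sum_mul, mul_assoc, hZ']
  have hZp : star Z * frameProj J = 0 := by simpa [star_frameProj] using congrArg star hpZ
  set m := 1 - frameProj J - Z * star Z with hm
  have hmZ : m * Z = 0 := by simp [hm, sub_mul, hpZ, mul_assoc, hZ1]
  have hms : star m = m := by simp [hm, star_frameProj]
  have hZm : star Z * m = 0 := by simpa [hms] using congrArg star hmZ
  have hmm : m * m = m := by
    conv_lhs => arg 2; rw [hm]
    rw [mul_sub, mul_sub, ← mul_assoc, hmZ, zero_mul, sub_zero, mul_one, hm, sub_mul, sub_mul,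
      one_mul, h.proj_sq, mul_assoc, hZp, mul_zero]
    abel
  refine ⟨m + Z * star q, ?_, ?_⟩
  · calc star (m + Z * star q) * (m + Z * star q)
        = m * m + (m * Z) * star q + q * (star Z * m) + q * (star Z * Z) * star q := by
          simp only [star_add, star_mul, star_star, hms]; noncomm_ring
      _ = 1 := by rw [hmm, hmZ, hZm, hZ1, zero_mul, mul_zero, add_zero, add_zero, mul_one, hqq',
                    hm]; abel
  · have hqm : star q * m = 0 := by
      have : (q * star q) * m = 0 := by
        rw [hqq', add_mul, mul_assoc Z, hZm, mul_zero, add_zero, hm, mul_sub, mul_sub, mul_one,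
          h.proj_sq, ← mul_assoc, hpZ, zero_mul, sub_self, sub_zero]
      calc star q * m = star q * q * (star q * m) := by rw [hqq, one_mul]
        _ = star q * (q * star q * m) := by noncomm_ring
        _ = 0 := by rw [this, mul_zero]
    have hmq : m * q = 0 := by simpa [hms] using congrArg star hqm
    calc (m + Z * star q) * star (m + Z * star q)
        = m * m + (m * q) * star Z + Z * (star q * m) + Z * (star q * q) * star Z := by
          simp only [star_add, star_mul, star_star, hms]; noncomm_ring
      _ = 1 - frameProj J := by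
          rw [hmm, hmq, hqm, hqq, zero_mul, mul_zero, add_zero, add_zero, mul_one, hm]; abel

/-- A unitary moving one frame to another. -/
theorem IsFrame.exists_move {J' : E →ₗ[ℂ] B} (h : IsFrame J) (h' : IsFrame J') (ht : IsPair t) :
    ∃ u : B, star u * u = 1 ∧ u * star u = 1 ∧ ∀ x, u * J x = J' x ∧ star u * J' x = J x := by
  obtain ⟨R, hR1, hR2⟩ := h.exists_compl ht
  obtain ⟨R', hR1', hR2'⟩ := h'.exists_compl ht
  set e := stdOrthonormalBasis ℂ E
  have kill : ∀ {J : E →ₗ[ℂ] B} {R : B}, IsFrame J → star R * R = 1 →
      R * star R = 1 - frameProj J → ∀ x, star R * J x = 0 := by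
    intro J R hJ h1 h2 x
    calc star R * J x = star R * R * (star R * J x) := by rw [h1, one_mul]
      _ = star R * (R * star R * J x) := by noncomm_ring
      _ = 0 := by rw [h2, sub_mul, one_mul, hJ.proj_mul, sub_self, mul_zero]
  have main : ∀ {J J' : E →ₗ[ℂ] B} {R R' : B}, IsFrame J → IsFrame J' → star R * R = 1 →
      R * star R = 1 - frameProj J → star R' * R' = 1 → R' * star R' = 1 - frameProj J' →
      ∀ x, (∑ a, J' (e a) * star (J (e a)) + R' * star R) * J x = J' x := by
    intro J J' R R' hJ _ h1 h2 _ _ x
    rw [add_mul, mul_assoc R', kill hJ h1 h2, mul_zero, add_zero]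
    simp only [Finset.sum_mul, mul_assoc, hJ.inner, mul_smul_comm, mul_one]
    conv_rhs => rw [← e.sum_repr' x]
    simp only [map_sum, map_smul]
  set u := ∑ a, J' (e a) * star (J (e a)) + R' * star R with hu
  have hstar : star u = ∑ a, J (e a) * star (J' (e a)) + R * star R' := by
    simp [hu, star_sum]
  have prod : ∀ {J J' : E →ₗ[ℂ] B} {R R' : B}, IsFrame J → IsFrame J' → star R * R = 1 →
      R * star R = 1 - frameProj J → star R' * R' = 1 → R' * star R' = 1 - frameProj J' →
      (∑ a, J (e a) * star (J' (e a)) + R * star R') *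
        (∑ a, J' (e a) * star (J (e a)) + R' * star R) = 1 := by
    intro J J' R R' hJ hJ' h1 h2 h1' h2'
    have hcol : ∀ a, (∑ b, J (e b) * star (J' (e b)) + R * star R') * J' (e a) = J (e a) :=
      fun a => main hJ' hJ h1' h2' h1 h2 (e a)
    have hR' : (∑ b, J (e b) * star (J' (e b)) + R * star R') * R' = R := by
      have : ∀ b, star (J' (e b)) * R' = 0 := fun b => by
        simpa using congrArg star (kill hJ' h1' h2' (e b))
      simp [add_mul, Finset.sum_mul, mul_assoc, this, h1']
    rw [mul_add, Finset.mul_sum, ← mul_assoc, hR']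
    simp only [← mul_assoc, hcol]
    rw [h2]
    exact add_sub_cancel _ _
  refine ⟨u, ?_, ?_, fun x => ⟨main h h' hR1 hR2 hR1' hR2' x, ?_⟩⟩
  · rw [hstar]; exact prod h h' hR1 hR2 hR1' hR2'
  · rw [hstar]; exact prod h' h hR1' hR2' hR1 hR2
  · rw [hstar]; exact main h' h hR1' hR2' hR1 hR2 x

/-- The standard frame. -/
noncomputable def stdFrame (t : Fin 2 → B) : E →ₗ[ℂ] B where
  toFun x := ∑ a, ⟪stdOrthonormalBasis ℂ E a, x⟫_ℂ • code t (a : ℕ)
  map_add' x y := by simp only [inner_add_right, add_smul, Finset.sum_add_distrib]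
  map_smul' c x := by simp only [inner_smul_right, mul_smul, Finset.smul_sum, RingHom.id_apply]

theorem isFrame_stdFrame (ht : IsPair t) : IsFrame (stdFrame t : E →ₗ[ℂ] B) := by
  refine ⟨fun x y => ?_, code t (Module.finrank ℂ E), by simp [ht.code_ite], fun x => ?_⟩
  · simp only [stdFrame, LinearMap.coe_mk, AddHom.coe_mk, star_sum, star_smul, Finset.sum_mul,
      Finset.mul_sum, smul_mul_assoc, mul_smul_comm, ht.code_ite, smul_ite, smul_zero]
    simp only [Fin.val_inj, Finset.sum_ite_eq', Finset.mem_univ, if_true, smul_smul,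
      ← Finset.sum_smul]
    congr 1
    rw [← (stdOrthonormalBasis ℂ E).sum_inner_mul_inner x y]
    refine Finset.sum_congr rfl fun a _ => ?_
    rw [← inner_conj_symm x (stdOrthonormalBasis ℂ E a)]
    exact mul_comm _ _
  · simp [stdFrame, Finset.mul_sum, ht.code_ite, (Fin.is_lt _).ne']

end Frame

end Vale.Agent.P083.Free
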