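import Mathlib

/-!
P083: tuples consisting of countably many Cuntz pairs, contractions and unitaries, and their
*-polynomials.
-/

namespace Vale.Agent.P083.Free

/-- The symbols: Cuntz pairs, contractions, unitaries. -/
abbrev Sym := (ℕ × Fin 2) ⊕ ℕ ⊕ ℕ

/-- Two isometries whose range projections sum to `1`. -/
structure IsPair {B : Type*} [Ring B] [StarRing B] (t : Fin 2 → B) : Prop where
  isometry : ∀ i, star (t i) * t i = 1
  sum_range : t 0 * star (t 0) + t 1 * star (t 1) = 1

/-- Countably many Cuntz pairs, contractions and unitaries. -/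
structure IsTuple {B : Type*} [NormedRing B] [StarRing B] (v : Sym → B) : Prop where
  pair : ∀ k, IsPair fun i => v (.inl (k, i))
  contraction : ∀ k, ‖v (.inr (.inl k))‖ ≤ 1
  unit : ∀ k, star (v (.inr (.inr k))) * v (.inr (.inr k)) = 1 ∧
    v (.inr (.inr k)) * star (v (.inr (.inr k))) = 1

section Pair

variable {B : Type*} [Ring B] [StarRing B] {t : Fin 2 → B}

theorem IsPair.orth (h : IsPair t) : star (t 0) * t 1 = 0 ∧ star (t 1) * t 0 = 0 := by
  have e : star (t 0) * t 1 = 0 := by
    have hA := congrArg (fun z => star (t 0) * z * t 1) h.sum_range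
    simp only [mul_add, add_mul, mul_one, ← mul_assoc, h.isometry, one_mul] at hA
    rw [mul_assoc (star (t 0) * t 1), h.isometry, mul_one] at hA
    simpa using hA
  exact ⟨e, by simpa using congrArg star e⟩

theorem IsPair.ite (h : IsPair t) (i j : Fin 2) :
    star (t i) * t j = if i = j then 1 else 0 := by
  fin_cases i <;> fin_cases j <;>
    simp [h.orth.1, h.orth.2, h.isometry]

theorem IsPair.sum_eq (h : IsPair t) : ∑ i, t i * star (t i) = 1 := by
  rw [Fin.sum_univ_two, h.sum_range]

theorem IsPair.map {C F : Type*} [Ring C] [StarRing C] [FunLike F B C] [RingHomClass F B C]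
    [StarHomClass F B C] (φ : F) (h : IsPair t) : IsPair fun i => φ (t i) :=
  ⟨fun i => by rw [← map_star, ← map_mul, h.isometry, map_one],
    by rw [← map_star, ← map_star, ← map_mul, ← map_mul, ← map_add, h.sum_range, map_one]⟩

end Pair

variable {B C : Type*} [CStarAlgebra B] [CStarAlgebra C]

theorem norm_le_one_of_isometry {x : B} (h : star x * x = 1) : ‖x‖ ≤ 1 := by
  rcases subsingleton_or_nontrivial B with hB | hB
  · simp [Subsingleton.elim x 0]
  · have h2 := CStarRing.norm_star_mul_self (x := x)
    rw [h, CStarRing.norm_one] at h2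
    nlinarith [norm_nonneg x]

theorem IsTuple.norm_le {v : Sym → B} (h : IsTuple v) (x : Sym) : ‖v x‖ ≤ 1 := by
  obtain ⟨k, i⟩ | k | k := x
  · exact norm_le_one_of_isometry ((h.pair k).isometry i)
  · exact h.contraction k
  · exact norm_le_one_of_isometry (h.unit k).1

theorem IsTuple.map {v : Sym → B} (h : IsTuple v) (φ : B →⋆ₐ[ℂ] C) : IsTuple fun x => φ (v x) :=
  ⟨fun k => (h.pair k).map φ,
    fun k => (NonUnitalStarAlgHom.norm_apply_le φ _).trans (h.contraction k),
    fun k => ⟨by rw [← map_star, ← map_mul, (h.unit k).1, map_one],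
      by rw [← map_star, ← map_mul, (h.unit k).2, map_one]⟩⟩

/-- The value of a letter, a symbol or its adjoint. -/
def letterVal {D : Type*} [Star D] (v : Sym → D) (l : Sym × Bool) : D :=
  if l.2 then star (v l.1) else v l.1

/-- The value of a word. -/
def wordVal {D : Type*} [Monoid D] [Star D] (v : Sym → D) (w : List (Sym × Bool)) : D :=
  (w.map (letterVal v)).prod

/-- The value of a *-polynomial. -/
noncomputable def polyEval {D : Type*} [Ring D] [Star D] [Algebra ℂ D] (v : Sym → D)
    (P : List (Sym × Bool) →₀ ℂ) : D :=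
  P.sum fun w c => c • wordVal v w

theorem norm_letterVal_le {v : Sym → B} (h : IsTuple v) (l : Sym × Bool) :
    ‖letterVal v l‖ ≤ 1 := by
  rw [letterVal]
  split_ifs
  · rw [norm_star]
    exact h.norm_le _
  · exact h.norm_le _

theorem norm_wordVal_le {v : Sym → B} (h : IsTuple v) : ∀ w, ‖wordVal v w‖ ≤ 1
  | [] => by simpa [wordVal] using norm_le_one_of_isometry (B := B) (x := 1) (by simp)
  | l :: w => by
    rw [wordVal, List.map_cons, List.prod_cons]
    exact (norm_mul_le _ _).trans
      (mul_le_one₀ (norm_letterVal_le h l) (norm_nonneg _) (norm_wordVal_le h w))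

theorem norm_polyEval_le {v : Sym → B} (h : IsTuple v) (P : List (Sym × Bool) →₀ ℂ) :
    ‖polyEval v P‖ ≤ P.sum fun _ c => ‖c‖ := by
  refine (norm_sum_le _ _).trans (Finset.sum_le_sum fun w _ => ?_)
  rw [norm_smul]
  exact mul_le_of_le_one_right (norm_nonneg _) (norm_wordVal_le h w)

theorem polyEval_sub {D : Type*} [Ring D] [Star D] [Algebra ℂ D] (v : Sym → D)
    (P Q : List (Sym × Bool) →₀ ℂ) : polyEval v (P - Q) = polyEval v P - polyEval v Q :=
  Finsupp.sum_sub_index fun _ _ _ => sub_smul _ _ _

theorem map_wordVal (φ : B →⋆ₐ[ℂ] C) (v : Sym → B) (w : List (Sym × Bool)) :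
    φ (wordVal v w) = wordVal (fun x => φ (v x)) w := by
  rw [wordVal, map_list_prod, List.map_map, wordVal]
  congr 1
  refine List.map_congr_left fun l _ => ?_
  simp only [Function.comp_apply, letterVal, apply_ite φ, map_star]

theorem map_polyEval (φ : B →⋆ₐ[ℂ] C) (v : Sym → B) (P : List (Sym × Bool) →₀ ℂ) :
    φ (polyEval v P) = polyEval (fun x => φ (v x)) P := by
  simp only [polyEval, map_finsuppSum, map_smul, map_wordVal]

section Adjoin

variable {D : Type*} [Ring D] [StarRing D] [Algebra ℂ D] [StarModule ℂ D]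

omit [Algebra ℂ D] [StarModule ℂ D] in
theorem star_wordVal (v : Sym → D) : ∀ w, ∃ w', star (wordVal v w) = wordVal v w'
  | [] => ⟨[], by simp [wordVal]⟩
  | l :: w => by
    obtain ⟨w', hw'⟩ := star_wordVal v w
    refine ⟨w' ++ [(l.1, !l.2)], ?_⟩
    have hl : star (letterVal v l) = letterVal v (l.1, !l.2) := by
      obtain ⟨x, b⟩ := l
      cases b <;> simp [letterVal]
    rw [wordVal, List.map_cons, List.prod_cons, star_mul, ← wordVal, hw', hl]
    simp [wordVal]

/-- Every element generated by the values of the symbols is the value of a *-polynomial. -/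
theorem exists_polyEval_eq (v : Sym → D) {x : D}
    (hx : x ∈ StarAlgebra.adjoin ℂ (Set.range v)) : ∃ P, polyEval v P = x := by
  let S : Submodule ℂ D := Submodule.span ℂ (Set.range (wordVal v))
  suffices hS : x ∈ S by
    obtain ⟨P, hP⟩ := Finsupp.mem_span_range_iff_exists_finsupp.1 hS
    exact ⟨P, hP⟩
  have hmul : ∀ a ∈ S, ∀ b ∈ S, a * b ∈ S := by
    intro a ha b hb
    induction ha using Submodule.span_induction with
    | mem a ha =>
      obtain ⟨w, rfl⟩ := ha
      induction hb using Submodule.span_induction with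
      | mem b hb =>
        obtain ⟨w', rfl⟩ := hb
        exact Submodule.subset_span ⟨w ++ w', by simp [wordVal]⟩
      | zero => simp
      | add b c _ _ h1 h2 => rw [mul_add]; exact add_mem h1 h2
      | smul r b _ h => rw [mul_smul_comm]; exact S.smul_mem r h
    | zero => simp
    | add a c _ _ h1 h2 => rw [add_mul]; exact add_mem h1 h2
    | smul r a _ h => rw [smul_mul_assoc]; exact S.smul_mem r h
  have hone : (1 : D) ∈ S := Submodule.subset_span ⟨[], by simp [wordVal]⟩
  induction hx using StarAlgebra.adjoin_induction with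
  | mem a ha =>
    obtain ⟨s, rfl⟩ := ha
    exact Submodule.subset_span ⟨[(s, false)], by simp [wordVal, letterVal]⟩
  | algebraMap r => rw [Algebra.algebraMap_eq_smul_one]; exact S.smul_mem r hone
  | add a b _ _ h1 h2 => exact add_mem h1 h2
  | mul a b _ _ h1 h2 => exact hmul a h1 b h2
  | star a ha h =>
    clear ha
    induction h using Submodule.span_induction with
    | mem a ha =>
      obtain ⟨w, rfl⟩ := ha
      obtain ⟨w', hw'⟩ := star_wordVal v w
      rw [hw']
      exact Submodule.subset_span ⟨w', rfl⟩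
    | zero => simp
    | add a b _ _ h1 h2 => rw [star_add]; exact add_mem h1 h2
    | smul r a _ h => rw [star_smul]; exact S.smul_mem _ h

end Adjoin

end Vale.Agent.P083.Free
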