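import Vale.Agent.P083.Free.Pairs

/-!
P083: the norm of a *-polynomial in any tuple is attained approximately by tuples inside a
C*-algebra with a Cuntz pair.
-/

namespace Vale.Agent.P083.Free

open scoped InnerProductSpace ComplexOrder

variable {B : Type*} [CStarAlgebra B] {t : Fin 2 → B}

section Operators

variable {H : Type*} [NormedAddCommGroup H] [InnerProductSpace ℂ H] [CompleteSpace H]
  {E : Submodule ℂ H} [FiniteDimensional ℂ E] {J : E →ₗ[ℂ] B}

omit [FiniteDimensional ℂ E] [CompleteSpace H] in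
theorem frame_norm_eq [Nontrivial B] [FiniteDimensional ℂ E] (hJ : IsFrame J) (x : E) :
    ‖J x‖ = ‖x‖ := by
  have h := CStarRing.norm_star_mul_self (x := J x)
  rw [hJ.inner, norm_smul, CStarRing.norm_one, mul_one, inner_self_eq_norm_sq_to_K] at h
  simp only [Complex.coe_algebraMap, norm_pow, Complex.norm_real, Real.norm_eq_abs,
    abs_norm] at h
  nlinarith [norm_nonneg x, norm_nonneg (J x)]

/-- The value of a contraction. -/
theorem exists_contraction_value (hJ : IsFrame J) {T : H →L[ℂ] H} (hT : ‖T‖ ≤ 1) :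
    ∃ U : B, ‖U‖ ≤ 1 ∧ ∀ x y : E, (T x = y → U * J x = J y) ∧
      (star T x = y → star U * J x = J y) := by
  let A : E →L[ℂ] E := E.orthogonalProjectionOnto ∘L T ∘L E.subtypeL
  have hA : ‖A‖ ≤ 1 := ContinuousLinearMap.opNorm_le_bound _ zero_le_one fun x => by
    refine (E.norm_orthogonalProjectionOnto_apply_le _).trans ?_
    exact (T.le_opNorm _).trans (mul_le_mul_of_nonneg_right hT (norm_nonneg _))
  refine ⟨frameMap J A, (hJ.norm_frameMap_le A).trans hA, fun x y => ⟨fun h => ?_, fun h => ?_⟩⟩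
  · rw [hJ.map_mul_eq]
    congr 1
    simp [A, h]
  · rw [← hJ.hom_apply, ← map_star, hJ.hom_apply, hJ.map_mul_eq]
    congr 1
    refine ext_inner_right ℂ fun z => ?_
    rw [ContinuousLinearMap.star_eq_adjoint, ContinuousLinearMap.adjoint_inner_left,
      Submodule.coe_inner, Submodule.coe_inner, ← h, ContinuousLinearMap.star_eq_adjoint,
      ContinuousLinearMap.adjoint_inner_left]
    exact E.inner_orthogonalProjectionOnto_eq_of_mem_left x (T z)

/-- The value of a unitary. -/
theorem exists_unitary_value (hJ : IsFrame J) {T : H →L[ℂ] H} (h1 : star T * T = 1)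
    (h2 : T * star T = 1) :
    ∃ U : B, star U * U = 1 ∧ U * star U = 1 ∧ ∀ x y : E, (T x = y → U * J x = J y) ∧
      (star T x = y → star U * J x = J y) := by
  let E₀ : Submodule ℂ E := E.comap (T.toLinearMap.comp E.subtype)
  have hiso : ∀ x : H, ‖T x‖ = ‖x‖ := fun x => by
    refine (sq_eq_sq₀ (norm_nonneg _) (norm_nonneg _)).1 ?_
    rw [norm_sq_eq_re_inner (𝕜 := ℂ), norm_sq_eq_re_inner (𝕜 := ℂ),
      ← ContinuousLinearMap.adjoint_inner_left, ← ContinuousLinearMap.star_eq_adjoint,
      ← mul_apply_eq_comp, h1, one_apply_eq_self]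
  let g : E₀ →ₗᵢ[ℂ] E :=
    { toLinearMap := LinearMap.codRestrict E ((T.toLinearMap.comp E.subtype).comp E₀.subtype)
        fun x => x.2
      norm_map' := fun x => hiso _ }
  let A : E →L[ℂ] E := g.extend.toContinuousLinearMap
  have hA : ∀ x y : E, T x = y → A x = y := fun x y h => by
    have hx : x ∈ E₀ := show T x ∈ E by rw [h]; exact y.2
    refine (g.extend_apply ⟨x, hx⟩).trans (Subtype.ext h)
  have hAA : star A * A = 1 := by
    refine ContinuousLinearMap.ext fun x => ext_inner_right ℂ fun z => ?_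
    rw [mul_apply_eq_comp, ContinuousLinearMap.star_eq_adjoint,
      ContinuousLinearMap.adjoint_inner_left]
    exact g.extend.inner_map_map x z
  have hAA' : A * star A = 1 := by
    refine ContinuousLinearMap.ext fun z => ?_
    obtain ⟨x, rfl⟩ : ∃ x, A x = z :=
      LinearMap.surjective_of_injective (f := A.toLinearMap) g.extend.injective z
    have := congrArg (fun S : E →L[ℂ] E => A (S x)) hAA
    simpa [mul_apply_eq_comp] using this
  have hA' : ∀ x y : E, star T x = y → star A x = y := fun x y h => by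
    have hy : T y = x := by
      rw [← h, ← mul_apply_eq_comp, h2, one_apply_eq_self]
    rw [← hA y x hy, ← mul_apply_eq_comp, hAA, one_apply_eq_self]
  set p := frameProj J with hp
  have hpA : ∀ S, p * frameMap J S = frameMap J S ∧ frameMap J S * p = frameMap J S := fun S => by
    rw [hp, ← frameMap_one, ← hJ.hom_apply, ← hJ.hom_apply, ← map_mul, ← map_mul, one_mul, mul_one]
    exact ⟨rfl, rfl⟩
  have hs : star (frameMap J A) = frameMap J (star A) := by
    rw [← hJ.hom_apply, ← map_star, hJ.hom_apply]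
  have prod : ∀ {S S' : E →L[ℂ] E}, S * S' = 1 →
      (frameMap J S + (1 - p)) * (frameMap J S' + (1 - p)) = 1 := fun {S S'} h => by
    have e : frameMap J S * frameMap J S' = p := by
      rw [← hJ.hom_apply, ← hJ.hom_apply, ← map_mul, h, hJ.hom_apply, frameMap_one]
    have hq : (1 - p) * (1 - p) = 1 - p := by
      rw [mul_sub, mul_one, sub_mul, one_mul, hp, hJ.proj_sq, sub_self, sub_zero]
    rw [add_mul, mul_add, mul_add, e, hq, mul_sub, mul_one, (hpA S).2, sub_mul, one_mul,
      (hpA S').1]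
    abel
  refine ⟨frameMap J A + (1 - p), ?_, ?_, fun x y => ⟨fun h => ?_, fun h => ?_⟩⟩
  · rw [star_add, star_sub, star_one, star_frameProj, hs]; exact prod hAA
  · rw [star_add, star_sub, star_one, star_frameProj, hs]; exact prod hAA'
  · rw [add_mul, hJ.map_mul_eq, hA x y h, sub_mul, one_mul, hJ.proj_mul, sub_self, add_zero]
  · rw [star_add, star_sub, star_one, star_frameProj, hs, add_mul, hJ.map_mul_eq, hA' x y h,
      sub_mul, one_mul, hJ.proj_mul, sub_self, add_zero]

end Operators

/-- On finitely many vectors of a Hilbert space, every tuple is imitated inside `B`. -/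
theorem exists_tuple_vector [Nontrivial B] (ht : IsPair t) {H : Type*} [NormedAddCommGroup H]
    [InnerProductSpace ℂ H] [CompleteSpace H] {h : Sym → H →L[ℂ] H} (hh : IsTuple h) {ξ : H}
    (hξ : ‖ξ‖ = 1) (P : List (Sym × Bool) →₀ ℂ) {ε : ℝ} (hε : 0 < ε) :
    ∃ U : Sym → B, IsTuple U ∧ ‖polyEval h P ξ‖ - ε ≤ ‖polyEval U P‖ := by
  classical
  let V : Finset H :=
    insert ξ (P.support.biUnion fun w => w.tails.toFinset.image fun u => wordVal h u ξ)
  let E : Submodule ℂ H := Submodule.span ℂ (V : Set H)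
  have hξE : ξ ∈ E := Submodule.subset_span (Finset.mem_insert_self _ _)
  have hmem : ∀ w ∈ P.support, ∀ u, u <:+ w → wordVal h u ξ ∈ E := fun w hw u hu =>
    Submodule.subset_span (Finset.mem_insert_of_mem (Finset.mem_biUnion.2
      ⟨w, hw, Finset.mem_image.2 ⟨u, List.mem_toFinset.2 ((List.mem_tails _ _).2 hu), rfl⟩⟩))
  set D : ℝ := P.sum fun w c => ‖c‖ * w.length with hD
  have hD0 : 0 ≤ D := Finset.sum_nonneg fun w _ => by positivity
  set δ := ε / (D + 1) with hδ'
  have hδ : 0 < δ := by positivity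
  set J₀ : E →ₗ[ℂ] B := stdFrame t
  have hJ₀ : IsFrame J₀ := isFrame_stdFrame ht
  choose Jp hJp using fun k => exists_pair_frame ht (hh.pair k) E hδ
  choose u hu using fun k => (hJp k).1.exists_move hJ₀ ht
  choose a ha using fun k => exists_contraction_value hJ₀ (hh.contraction k)
  choose z hz using fun k => exists_unitary_value hJ₀ (hh.unit k).1 (hh.unit k).2
  let U : Sym → B := Sum.elim (fun p => u p.1 * t p.2 * star (u p.1)) (Sum.elim a z)
  have hU : IsTuple U := by
    refine ⟨fun k => ⟨fun i => ?_, ?_⟩, fun k => (ha k).1, fun k => ⟨(hz k).1, (hz k).2.1⟩⟩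
    · simp only [U, Sum.elim_inl, star_mul, star_star]
      calc _ = u k * (star (t i) * (star (u k) * u k) * t i) * star (u k) := by noncomm_ring
        _ = 1 := by rw [(hu k).1, mul_one, ht.isometry, mul_one, (hu k).2.1]
    · simp only [U, Sum.elim_inl, star_mul, star_star]
      calc _ = u k * (t 0 * (star (u k) * u k) * star (t 0) +
            t 1 * (star (u k) * u k) * star (t 1)) * star (u k) := by noncomm_ring
        _ = 1 := by rw [(hu k).1, mul_one, mul_one, ht.sum_range, mul_one, (hu k).2.1]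
  have hletter : ∀ l, ∀ x y : E, letterVal h l x = y →
      ‖letterVal U l * J₀ x - J₀ y‖ ≤ δ * ‖x‖ := by
    rintro ⟨(⟨k, i⟩ | k | k), b⟩ x y hxy
    · have hu1 : ‖u k‖ ≤ 1 := norm_le_one_of_isometry (hu k).1
      have e : letterVal U (.inl (k, i), b) * J₀ x - J₀ y =
          u k * ((if b then star (t i) else t i) * Jp k x - Jp k y) := by
        rw [mul_sub, ((hu k).2.2 y).1, ← mul_assoc, ← ((hu k).2.2 x).2]
        cases b <;> simp [letterVal, U, mul_assoc]
      rw [e]
      refine (norm_mul_le _ _).trans ((mul_le_of_le_one_left (norm_nonneg _) hu1).trans ?_)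
      cases b
      · exact ((hJp k).2 i x y).1 hxy
      · exact ((hJp k).2 i x y).2 hxy
    all_goals
      refine (le_of_eq ?_).trans (mul_nonneg hδ.le (norm_nonneg x))
      rw [norm_eq_zero, sub_eq_zero]
      cases b
      · first
        | exact ((ha k).2 x y).1 hxy
        | exact ((hz k).2.2 x y).1 hxy
      · first
        | exact ((ha k).2 x y).2 hxy
        | exact ((hz k).2.2 x y).2 hxy
  have hword : ∀ w, (hw : ∀ v, v <:+ w → wordVal h v ξ ∈ E) →
      ‖wordVal U w * J₀ ⟨ξ, hξE⟩ - J₀ ⟨wordVal h w ξ, hw w (List.suffix_refl w)⟩‖ ≤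
        w.length * δ := by
    intro w
    induction w with
    | nil => intro hw; simp [wordVal]
    | cons l w ih =>
      intro hw
      have hw' : ∀ v, v <:+ w → wordVal h v ξ ∈ E := fun v hv =>
        hw v (hv.trans (List.suffix_cons l w))
      set x : E := ⟨wordVal h w ξ, hw' w (List.suffix_refl w)⟩
      set y : E := ⟨wordVal h (l :: w) ξ, hw _ (List.suffix_refl _)⟩
      have hxy : letterVal h l x = y := by
        simp [x, y, wordVal, mul_apply_eq_comp]
      have h1 : ‖x‖ ≤ 1 := by
        show ‖wordVal h w ξ‖ ≤ 1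
        exact (ContinuousLinearMap.le_opNorm _ _).trans
          (mul_le_one₀ (norm_wordVal_le hh w) (norm_nonneg _) hξ.le)
      rw [show wordVal U (l :: w) = letterVal U l * wordVal U w by simp [wordVal], mul_assoc,
        show letterVal U l * (wordVal U w * J₀ ⟨ξ, hξE⟩) - J₀ y =
          letterVal U l * (wordVal U w * J₀ ⟨ξ, hξE⟩ - J₀ x) + (letterVal U l * J₀ x - J₀ y) by
          noncomm_ring]
      refine (norm_add_le _ _).trans ((add_le_add ((norm_mul_le _ _).trans
        (mul_le_of_le_one_left (norm_nonneg _) (norm_letterVal_le hU l))) (hletter l x y hxy)).trans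
        ?_)
      have := ih hw'
      have := mul_le_mul_of_nonneg_left h1 hδ.le
      simp only [List.length_cons, Nat.cast_add, Nat.cast_one]
      linarith
  refine ⟨U, hU, ?_⟩
  have hy : polyEval h P ξ ∈ E := by
    simp only [polyEval, Finsupp.sum, _root_.sum_apply, _root_.smul_apply]
    exact E.sum_mem fun w hw => E.smul_mem _ (hmem w hw w (List.suffix_refl w))
  have key : ‖polyEval U P * J₀ ⟨ξ, hξE⟩ - J₀ ⟨polyEval h P ξ, hy⟩‖ ≤ D * δ := by
    have e : (⟨polyEval h P ξ, hy⟩ : E) = ∑ w ∈ P.support.attach,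
        P w • (⟨wordVal h w ξ, hmem w w.2 w (List.suffix_refl _)⟩ : E) := by
      refine Subtype.ext ?_
      simp only [polyEval, Finsupp.sum, _root_.sum_apply, _root_.smul_apply,
        Submodule.coe_sum, Submodule.coe_smul]
      exact (Finset.sum_attach P.support fun w => P w • wordVal h w ξ).symm
    rw [e, map_sum, polyEval, Finsupp.sum, ← Finset.sum_attach P.support, Finset.sum_mul,
      ← Finset.sum_sub_distrib]
    refine (norm_sum_le _ _).trans ?_
    rw [hD, Finsupp.sum, Finset.sum_mul, ← Finset.sum_attach P.support]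
    refine Finset.sum_le_sum fun w _ => ?_
    rw [map_smul, smul_mul_assoc, ← smul_sub, norm_smul, mul_assoc]
    exact mul_le_mul_of_nonneg_left (hword w fun v hv => hmem w w.2 v hv) (norm_nonneg _)
  have h1 : ‖polyEval U P * J₀ ⟨ξ, hξE⟩‖ ≤ ‖polyEval U P‖ := by
    refine (norm_mul_le _ _).trans (le_of_eq ?_)
    rw [frame_norm_eq hJ₀, show ‖(⟨ξ, hξE⟩ : E)‖ = 1 from hξ, mul_one]
  have h2 := norm_sub_norm_le (J₀ ⟨polyEval h P ξ, hy⟩) (polyEval U P * J₀ ⟨ξ, hξE⟩)
  rw [norm_sub_rev, frame_norm_eq hJ₀] at h2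
  have h3 : D * δ ≤ ε := by
    rw [hδ', ← mul_div_assoc, div_le_iff₀ (by linarith)]
    nlinarith
  have h4 : ‖(⟨polyEval h P ξ, hy⟩ : E)‖ = ‖polyEval h P ξ‖ := rfl
  linarith

/-- Some tuple exists. -/
theorem isTuple_default (ht : IsPair t) :
    IsTuple (Sum.elim (fun p => t p.2) (Sum.elim (fun _ => 0) fun _ => 1) : Sym → B) :=
  ⟨fun _ => ht, fun _ => by simp, fun _ => by simp⟩

/-- A state attaining a given norm. -/
theorem exists_state_attains {C : Type*} [CStarAlgebra C] [PartialOrder C] [StarOrderedRing C]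
    [Nontrivial C] (x : C) :
    ∃ f : C →ₚ[ℂ] ℂ, f 1 = 1 ∧ (f (star x * x)).re = ‖x‖ ^ 2 := by
  set a := star x * x with ha
  set r := ‖a‖ + 1 with hr
  have hr0 : 0 < r := by positivity
  set b := algebraMap ℂ C r + a with hb
  have hmem : ((‖a‖ : ℂ)) ∈ spectrum ℂ a := by
    have := CStarAlgebra.norm_mem_spectrum_of_nonneg (star_mul_self_nonneg x)
    simpa [ha, Complex.coe_algebraMap] using
      spectrum.algebraMap_mem ℂ this
  have hnb : ‖b‖ = r + ‖a‖ := by
    refine le_antisymm ((norm_add_le _ _).trans ?_) ?_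
    · rw [norm_algebraMap', Complex.norm_real, Real.norm_of_nonneg hr0.le]
    · have h2 : (r : ℂ) + (‖a‖ : ℂ) ∈ spectrum ℂ b := by
        rw [hb, ← spectrum.singleton_add_eq]
        exact Set.add_mem_add rfl hmem
      have := spectrum.norm_le_norm_of_mem h2
      rwa [← Complex.ofReal_add, Complex.norm_real,
        Real.norm_of_nonneg (by positivity)] at this
  obtain ⟨g, hg, hgb⟩ := exists_dual_vector ℂ b (ne_of_gt (show 0 < ‖b‖ by rw [hnb]; linarith [norm_nonneg a]))
  have hle : ∀ y, ‖g y‖ ≤ ‖y‖ := fun y => by simpa [hg] using g.le_opNorm y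
  have hg1a : g 1 = 1 ∧ (g a).re = ‖a‖ := by
    have h1 := (hle 1).trans_eq CStarRing.norm_one
    have h2 := Complex.re_le_norm (g 1)
    have h3 := (Complex.re_le_norm (g a)).trans (hle a)
    have h4 := congrArg Complex.re hgb
    rw [hb, map_add, Algebra.algebraMap_eq_smul_one, map_smul, smul_eq_mul, Complex.add_re,
      Complex.re_ofReal_mul, ← Algebra.algebraMap_eq_smul_one, ← hb, hnb] at h4
    have h5 : r * (g 1).re ≤ r * 1 := mul_le_mul_of_nonneg_left (h2.trans h1) hr0.le
    simp only [Complex.coe_algebraMap, Complex.ofReal_re] at h4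
    have h6 : (g 1).re = 1 := by nlinarith
    refine ⟨Complex.ext h6 ?_, by nlinarith⟩
    have h7 : (g 1).re ^ 2 + (g 1).im ^ 2 ≤ 1 := by
      have := pow_le_one₀ (norm_nonneg _) h1 (n := 2)
      rw [← Complex.normSq_eq_norm_sq, Complex.normSq_apply] at this
      linarith [sq (g 1).re, sq (g 1).im]
    have : (g 1).im ^ 2 ≤ 0 := by nlinarith
    simpa using pow_eq_zero_iff two_ne_zero |>.1 (le_antisymm this (sq_nonneg _))
  have him : ∀ y : C, IsSelfAdjoint y → (g y).im = 0 := by
    intro y hy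
    by_contra hne
    set s := (g y).im with hs
    set c := (‖y‖ ^ 2 + 1) / (2 * s) with hc
    set w := y + algebraMap ℂ C (c * Complex.I) with hw
    have hn : ‖w‖ ^ 2 ≤ ‖y‖ ^ 2 + c ^ 2 := by
      rw [sq ‖w‖, ← CStarRing.norm_star_mul_self]
      have e : star w * w = y * y + algebraMap ℂ C ((c : ℂ) ^ 2) := by
        simp only [hw, star_add, hy.star_eq, Algebra.algebraMap_eq_smul_one, star_smul, star_one,
          Complex.star_def, map_mul, Complex.conj_ofReal, Complex.conj_I, add_mul, mul_add,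
          smul_mul_assoc, mul_smul_comm, one_mul, mul_one, smul_smul]
        match_scalars <;> ring_nf
        simp [Complex.I_sq]
      rw [e]
      refine (norm_add_le _ _).trans (add_le_add ?_ (le_of_eq ?_))
      · exact (norm_mul_le _ _).trans_eq (sq _).symm
      · rw [norm_algebraMap', norm_pow, Complex.norm_real, Real.norm_eq_abs, sq_abs]
    have hgw : (g w).im = s + c := by
      rw [hw, map_add, Algebra.algebraMap_eq_smul_one, map_smul, smul_eq_mul, hg1a.1]
      simp [hs]
    have h3 : (s + c) ^ 2 ≤ ‖w‖ ^ 2 := by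
      rw [← hgw, ← sq_abs]
      exact pow_le_pow_left₀ (abs_nonneg _) ((Complex.abs_im_le_norm _).trans (hle w)) 2
    have h4 : 2 * s * c = ‖y‖ ^ 2 + 1 := by rw [hc]; field_simp
    nlinarith
  refine ⟨PositiveLinearMap.mk₀ g.toLinearMap fun y hy => ?_, hg1a.1, ?_⟩
  · have hsa := IsSelfAdjoint.of_nonneg hy
    refine Complex.nonneg_iff.2 ⟨?_, (him y hsa).symm⟩
    have hle' : ‖algebraMap ℂ C (‖y‖ : ℂ) - y‖ ≤ ‖y‖ := by
      rw [← Complex.coe_algebraMap, ← IsScalarTower.algebraMap_apply]
      refine (CStarAlgebra.norm_le_iff_le_algebraMap _ (norm_nonneg y)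
        (sub_nonneg.2 hsa.le_algebraMap_norm_self)).2 (sub_le_self _ hy)
    have h5 := (Complex.re_le_norm _).trans ((hle _).trans hle')
    rw [map_sub, Algebra.algebraMap_eq_smul_one, map_smul, hg1a.1] at h5
    simp at h5
    exact h5
  · change (g a).re = _
    rw [hg1a.2, ha, CStarRing.norm_star_mul_self, sq]

/-- The norm of a *-polynomial in any tuple is nearly attained inside `B`. -/
theorem exists_tuple_near [Nontrivial B] (ht : IsPair t) {C : Type*} [CStarAlgebra C]
    {h : Sym → C} (hh : IsTuple h) (P : List (Sym × Bool) →₀ ℂ) {ε : ℝ} (hε : 0 < ε) :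
    ∃ U : Sym → B, IsTuple U ∧ ‖polyEval h P‖ - ε ≤ ‖polyEval U P‖ := by
  rcases subsingleton_or_nontrivial C with hC | hC
  · refine ⟨_, isTuple_default ht, ?_⟩
    rw [Subsingleton.elim (polyEval h P) 0, norm_zero]
    linarith [norm_nonneg (polyEval (Sum.elim (fun p => t p.2)
      (Sum.elim (fun _ => (0 : B)) fun _ => 1) : Sym → B) P)]
  let := CStarAlgebra.spectralOrder C
  have := CStarAlgebra.spectralOrderedRing C
  obtain ⟨f, hf1, hf⟩ := exists_state_attains (polyEval h P)
  let ξ : f.GNS := ↑(f.toPreGNS 1)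
  have hinner : ∀ y, ⟪ξ, f.gnsStarAlgHom y ξ⟫_ℂ = f y := fun y => by
    have hap : f.gnsStarAlgHom y ξ = ↑(f.toPreGNS y) := by
      simp [ξ, PositiveLinearMap.gnsStarAlgHom]
    rw [hap, UniformSpace.Completion.inner_coe]
    simp [PositiveLinearMap.preGNS_inner_def]
  have hξ : ‖ξ‖ = 1 := by
    rw [UniformSpace.Completion.norm_coe, PositiveLinearMap.preGNS_norm_def]
    simp [hf1]
  obtain ⟨U, hU, hUn⟩ := exists_tuple_vector ht (hh.map f.gnsStarAlgHom) hξ P hε
  refine ⟨U, hU, le_trans (le_of_eq ?_) hUn⟩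
  rw [← map_polyEval]
  set X := polyEval h P
  congr 1
  refine (sq_eq_sq₀ (norm_nonneg _) (norm_nonneg _)).1 ?_
  rw [← hf, ← hinner, map_mul, map_star, norm_sq_eq_re_inner (𝕜 := ℂ), mul_apply_eq_comp,
    ContinuousLinearMap.star_eq_adjoint, ContinuousLinearMap.adjoint_inner_right]
  rfl

end Vale.Agent.P083.Free
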