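import Mathlib

/-! P083: the norm ultrapower of a C*-algebra. -/

open Filter Topology BoundedContinuousFunction

namespace Vale.Agent.P083.Free

section

variable (A : Type*) [CStarAlgebra A] (ω : Ultrafilter ℕ)

/-- The bounded sequences tending to zero in norm along `ω`. -/
noncomputable def nullSeq : Ideal (ℕ →ᵇ A) where
  carrier := {x | Tendsto (fun n => ‖x n‖) ω (𝓝 0)}
  add_mem' {x y} hx hy := squeeze_zero (fun _ => norm_nonneg _)
    (fun n => norm_add_le (x n) (y n)) (by simpa using Filter.Tendsto.add hx hy)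
  zero_mem' := by simp
  smul_mem' c x hx := squeeze_zero (fun _ => norm_nonneg _)
    (fun n => (norm_mul_le (c n) (x n)).trans
      (mul_le_mul_of_nonneg_right (c.norm_coe_le_norm n) (norm_nonneg _)))
    (by simpa using Filter.Tendsto.const_mul ‖c‖ hx)

instance nullSeq_isTwoSided : (nullSeq A ω).IsTwoSided := ⟨fun {x} b hx =>
  squeeze_zero (fun _ => norm_nonneg _)
    (fun n => (norm_mul_le (x n) (b n)).trans
      (mul_le_mul_of_nonneg_left (b.norm_coe_le_norm n) (norm_nonneg _)))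
    (by simpa using Filter.Tendsto.mul_const ‖b‖ hx)⟩

/-- The norm ultrapower: bounded sequences modulo the sequences that tend to zero in norm. -/
abbrev UPow := (ℕ →ᵇ A) ⧸ nullSeq A ω

end

variable {A : Type*} [CStarAlgebra A] {ω : Ultrafilter ℕ}

instance isClosed_nullSeq : IsClosed (nullSeq A ω : Set (ℕ →ᵇ A)) := by
  refine isClosed_of_closure_subset fun x hx => ?_
  show Tendsto (fun n => ‖(x : ℕ →ᵇ A) n‖) ω (𝓝 0)
  rw [Metric.tendsto_nhds]
  intro ε hε
  obtain ⟨y, hy, hxy⟩ := Metric.mem_closure_iff.1 hx (ε / 2) (half_pos hε)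
  filter_upwards [Metric.tendsto_nhds.1 (hy : Tendsto _ _ _) (ε / 2) (half_pos hε)] with n hn
  rw [Real.dist_0_eq_abs, abs_norm] at hn ⊢
  have h1 : ‖(x : ℕ →ᵇ A) n - (y : ℕ →ᵇ A) n‖ ≤ ε / 2 :=
    (((x - y : (ℕ →ᵇ A)) : ℕ →ᵇ A).norm_coe_le_norm n).trans
      (by rw [dist_eq_norm] at hxy; exact hxy.le)
  linarith [norm_le_norm_add_norm_sub' ((x : ℕ →ᵇ A) n) ((y : ℕ →ᵇ A) n)]

theorem norm_mk_le_of_eventually (x : (ℕ →ᵇ A)) {c : ℝ}
    (h : ∀ᶠ n in (ω : Filter ℕ), ‖(x : ℕ →ᵇ A) n‖ ≤ c) :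
    ‖Ideal.Quotient.mk (nullSeq A ω) x‖ ≤ c := by
  classical
  obtain ⟨n₀, hn₀⟩ := h.exists
  have hc : 0 ≤ c := (norm_nonneg _).trans hn₀
  let f : ℕ → A := fun n => if ‖(x : ℕ →ᵇ A) n‖ ≤ c then (x : ℕ →ᵇ A) n else 0
  have hf : ∀ n, ‖f n‖ ≤ c := fun n => by
    by_cases hn : ‖(x : ℕ →ᵇ A) n‖ ≤ c <;> simp [f, hn, hc]
  let y : ℕ →ᵇ A := BoundedContinuousFunction.ofNormedAddCommGroupDiscrete f c hf
  have hy : ∀ n, y n = f n := fun n => rfl
  have hxy : ∀ᶠ n in (ω : Filter ℕ), y n = (x : ℕ →ᵇ A) n :=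
    h.mono fun n hn => by simp [hy, f, hn]
  have hnull : x - y ∈ nullSeq A ω :=
    tendsto_const_nhds.congr' (hxy.mono fun n hn => by simp [hn])
  rw [Ideal.Quotient.eq.2 hnull]
  exact (Submodule.Quotient.norm_mk_le (nullSeq A ω) y).trans
    ((BoundedContinuousFunction.norm_le hc).2 hf)

theorem eventually_norm_lt_of_norm_mk_lt (x : (ℕ →ᵇ A)) {c : ℝ}
    (h : ‖Ideal.Quotient.mk (nullSeq A ω) x‖ < c) :
    ∀ᶠ n in (ω : Filter ℕ), ‖(x : ℕ →ᵇ A) n‖ < c := by
  set δ := (c - ‖Ideal.Quotient.mk (nullSeq A ω) x‖) / 2 with hδ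
  have hδ0 : 0 < δ := by linarith [hδ]
  obtain ⟨y, hy, hyn⟩ := Submodule.Quotient.norm_mk_lt
    (Ideal.Quotient.mk (nullSeq A ω) x) hδ0
  have hnull : y - x ∈ nullSeq A ω := Ideal.Quotient.eq.1 hy
  filter_upwards [Metric.tendsto_nhds.1 (hnull : Tendsto _ _ _) δ hδ0] with n hn
  rw [Real.dist_0_eq_abs, abs_norm] at hn
  change ‖(y : ℕ →ᵇ A) n - (x : ℕ →ᵇ A) n‖ < δ at hn
  have h1 : ‖(y : ℕ →ᵇ A) n‖ ≤ ‖y‖ := (y : ℕ →ᵇ A).norm_coe_le_norm n
  linarith [norm_le_norm_add_norm_sub ((y : ℕ →ᵇ A) n) ((x : ℕ →ᵇ A) n), hδ]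

theorem norm_upow_mul_le (x y : UPow A ω) : ‖x * y‖ ≤ ‖x‖ * ‖y‖ := by
  refine le_of_forall_pos_le_add fun ε hε => ?_
  set η := min 1 (ε / (‖x‖ + ‖y‖ + 1)) with hη
  have hη0 : 0 < η := lt_min one_pos (by positivity)
  obtain ⟨a, rfl, ha⟩ := Submodule.Quotient.norm_mk_lt x hη0
  obtain ⟨b, rfl, hb⟩ := Submodule.Quotient.norm_mk_lt y hη0
  refine ((Submodule.Quotient.norm_mk_le (nullSeq A ω) (a * b)).trans (norm_mul_le a b)).trans ?_
  refine (mul_le_mul ha.le hb.le (norm_nonneg _) (by positivity)).trans ?_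
  set X := ‖(Submodule.Quotient.mk a : UPow A ω)‖
  set Y := ‖(Submodule.Quotient.mk b : UPow A ω)‖
  have hX : 0 ≤ X := norm_nonneg _
  have hY : 0 ≤ Y := norm_nonneg _
  have h1 : η * (X + Y + 1) ≤ ε := (le_div_iff₀ (by positivity)).1 (min_le_right _ _)
  nlinarith [min_le_left 1 (ε / (X + Y + 1))]

noncomputable instance instStarUPow : Star (UPow A ω) where
  star := Quotient.map' star fun a b hab => by
    rw [Submodule.quotientRel_def] at hab ⊢
    show Tendsto _ _ _
    have : Tendsto (fun n => ‖((a - b : (ℕ →ᵇ A)) : ℕ →ᵇ A) n‖) ω (𝓝 0) := hab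
    refine this.congr fun n => ?_
    simp [← star_sub, norm_star]

theorem star_mk (x : (ℕ →ᵇ A)) :
    star (Ideal.Quotient.mk (nullSeq A ω) x) = Ideal.Quotient.mk (nullSeq A ω) (star x) :=
  rfl

noncomputable instance instStarRingUPow : StarRing (UPow A ω) where
  star_involutive x := by
    obtain ⟨a, rfl⟩ := Ideal.Quotient.mk_surjective x
    rw [star_mk, star_mk, star_star]
  star_mul x y := by
    obtain ⟨a, rfl⟩ := Ideal.Quotient.mk_surjective x
    obtain ⟨b, rfl⟩ := Ideal.Quotient.mk_surjective y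
    rw [← map_mul, star_mk, star_mk, star_mk, star_mul, map_mul]
  star_add x y := by
    obtain ⟨a, rfl⟩ := Ideal.Quotient.mk_surjective x
    obtain ⟨b, rfl⟩ := Ideal.Quotient.mk_surjective y
    rw [← map_add, star_mk, star_mk, star_mk, star_add, map_add]

noncomputable instance instNormedRingUPow : NormedRing (UPow A ω) :=
  { Submodule.Quotient.normedAddCommGroup (nullSeq A ω),
    (inferInstance : Ring (UPow A ω)) with
    dist_eq := dist_eq_norm_neg_add
    norm_mul_le := norm_upow_mul_le }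

instance instCompleteSpaceUPow : CompleteSpace (UPow A ω) :=
  Submodule.Quotient.completeSpace _

instance instCStarRingUPow : CStarRing (UPow A ω) where
  norm_mul_self_le x := by
    obtain ⟨a, rfl⟩ := Ideal.Quotient.mk_surjective x
    rw [star_mk, ← map_mul]
    set X := ‖Ideal.Quotient.mk (nullSeq A ω) a‖
    refine le_of_forall_pos_le_add fun ε hε => ?_
    set c := ‖Ideal.Quotient.mk (nullSeq A ω) (star a * a)‖ + ε with hc
    have hc0 : 0 ≤ c := by positivity
    have hX : X ≤ Real.sqrt c := by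
      refine norm_mk_le_of_eventually a ?_
      filter_upwards [eventually_norm_lt_of_norm_mk_lt (star a * a)
        (show ‖Ideal.Quotient.mk (nullSeq A ω) (star a * a)‖ < c by linarith [hc])] with n hn
      refine Real.le_sqrt_of_sq_le ?_
      rw [sq, ← CStarRing.norm_star_mul_self]
      exact hn.le
    calc X * X ≤ Real.sqrt c * Real.sqrt c := mul_self_le_mul_self (norm_nonneg _) hX
      _ = c := Real.mul_self_sqrt hc0

noncomputable instance instAlgebraUPow : Algebra ℂ (UPow A ω) :=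
  Ideal.Quotient.algebra ℂ

noncomputable instance instNormedAlgebraUPow : NormedAlgebra ℂ (UPow A ω) where
  __ := instAlgebraUPow
  norm_smul_le c x := by
    have := Submodule.Quotient.normedSpace (nullSeq A ω) ℂ
    exact norm_smul_le c x

instance instStarModuleUPow : StarModule ℂ (UPow A ω) where
  star_smul c x := by
    obtain ⟨a, rfl⟩ := Ideal.Quotient.mk_surjective x
    change star (Ideal.Quotient.mk (nullSeq A ω) (c • a)) =
      Ideal.Quotient.mk (nullSeq A ω) (star c • star a)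
    rw [star_mk, star_smul]

noncomputable instance instCStarAlgebraUPow : CStarAlgebra (UPow A ω) where

instance instT2SpaceUPow : T2Space (UPow A ω) :=
  @TopologicalSpace.t2Space_of_metrizableSpace _ _ _

/-- The quotient map. -/
noncomputable def upowMk : (ℕ →ᵇ A) →⋆ₐ[ℂ] UPow A ω where
  toFun := Ideal.Quotient.mk (nullSeq A ω)
  map_one' := map_one _
  map_mul' := map_mul _
  map_zero' := map_zero _
  map_add' := map_add _
  commutes' _ := rfl
  map_star' _ := rfl

end Vale.Agent.P083.Free
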