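import Vale.Agent.P083.Free.Lower
import Vale.Agent.P083.Free.Ultrapower
import Vale.Agent.P101.Fomega.Extend

/-!
P083: the universal algebra of countably many Cuntz pairs, contractions and unitaries lives
unitally inside the norm ultrapower of any algebra with a Cuntz pair.
-/

open Filter Topology BoundedContinuousFunction

namespace Vale.Agent.P083.Free

universe u v

variable {B : Type*} [CStarAlgebra B] {t : Fin 2 → B}

/-- Evaluation of a bounded sequence. -/
noncomputable def evalAt (n : ℕ) : (ℕ →ᵇ B) →⋆ₐ[ℂ] B where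
  toFun x := x n
  map_one' := rfl
  map_mul' _ _ := rfl
  map_zero' := rfl
  map_add' _ _ := rfl
  commutes' _ := rfl
  map_star' _ := rfl

/-- Gaussian rational coefficients made complex. -/
noncomputable def ratPoly (Q : List (Sym × Bool) →₀ ℚ × ℚ) : List (Sym × Bool) →₀ ℂ :=
  Q.mapRange (fun q => (q.1 : ℂ) + (q.2 : ℂ) * Complex.I) (by simp)

theorem exists_ratPoly_near (P : List (Sym × Bool) →₀ ℂ) {η : ℝ} (hη : 0 < η) :
    ∃ Q, ((P - ratPoly Q).sum fun _ c => ‖c‖) ≤ η := by
  classical
  set e := η / (2 * (P.support.card + 1)) with he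
  have he0 : 0 < e := by positivity
  choose qr hqr using fun w => exists_rat_near (P w).re he0
  choose qi hqi using fun w => exists_rat_near (P w).im he0
  refine ⟨Finsupp.onFinset P.support (fun w => if w ∈ P.support then (qr w, qi w) else 0)
    (fun w hw => by by_contra hn; simp [hn] at hw), ?_⟩
  rw [Finsupp.sum_of_support_subset _ (s := P.support) (fun w hw => ?_) _ fun _ _ => norm_zero]
  · calc _ ≤ ∑ _w ∈ P.support, 2 * e := Finset.sum_le_sum fun w hw => by
          simp only [Finsupp.coe_sub, Pi.sub_apply, ratPoly, Finsupp.mapRange_apply,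
            Finsupp.onFinset_apply, if_pos hw]
          refine (Complex.norm_le_abs_re_add_abs_im _).trans ?_
          simp only [Complex.sub_re, Complex.sub_im, Complex.add_re, Complex.add_im,
            Complex.mul_re, Complex.mul_im, Complex.ratCast_re, Complex.ratCast_im, Complex.I_re,
            Complex.I_im, mul_zero, mul_one, add_zero, zero_add, sub_zero]
          linarith [hqr w, hqi w]
      _ ≤ η := by
          rw [Finset.sum_const, nsmul_eq_mul, he]
          rw [← mul_div_assoc, ← mul_div_assoc, div_le_iff₀ (by positivity)]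
          nlinarith
  · by_contra hn
    simp [ratPoly, Finsupp.notMem_support_iff.1 hn] at hw

/-- Finitely many tuples are compressions of a single one. -/
theorem exists_combined (ht : IsPair t) (K : ℕ) (U : Fin (K + 1) → Sym → B)
    (hU : ∀ j, IsTuple (U j)) :
    ∃ V : Sym → B, IsTuple V ∧ ∀ j P, ‖polyEval (U j) P‖ ≤ ‖polyEval V P‖ := by
  let r := blocks t K
  let Φ : (Fin (K + 1) → B) →⋆ₐ[ℂ] B :=
    { toFun := fun x => ∑ j, r j * x j * star (r j)
      map_one' := by simp [r, ht.sum_blocks]
      map_mul' := fun x y => by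
        simp only [Finset.sum_mul, Finset.mul_sum]
        refine Finset.sum_congr rfl fun j _ => ?_
        rw [Finset.sum_eq_single j]
        · rw [show r j * x j * star (r j) * (r j * y j * star (r j)) =
            r j * x j * (star (r j) * r j) * y j * star (r j) by noncomm_ring]
          simp [r, ht.blocks_ite, mul_assoc]
        · intro i _ hij
          rw [show r i * x i * star (r i) * (r j * y j * star (r j)) =
            r i * x i * (star (r i) * r j) * y j * star (r j) by noncomm_ring]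
          simp [r, ht.blocks_ite, hij]
        · simp
      map_zero' := by simp
      map_add' := fun x y => by simp [mul_add, add_mul, Finset.sum_add_distrib]
      commutes' := fun c => by
        simp [r, Algebra.algebraMap_eq_smul_one, ← Finset.smul_sum, ht.sum_blocks]
      map_star' := fun x => by simp [star_sum, mul_assoc] }
  have hcol : IsTuple fun x => (fun j => U j x : Fin (K + 1) → B) :=
    ⟨fun k => ⟨fun i => funext fun j => ((hU j).pair k).isometry i,
      funext fun j => ((hU j).pair k).sum_range⟩,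
    fun k => (pi_norm_le_iff_of_nonneg zero_le_one).2 fun j => (hU j).contraction k,
    fun k => ⟨funext fun j => ((hU j).unit k).1, funext fun j => ((hU j).unit k).2⟩⟩
  refine ⟨fun x => Φ fun j => U j x, hcol.map Φ, fun j P => ?_⟩
  rw [← map_polyEval Φ]
  set X := polyEval (fun x => (fun j => U j x : Fin (K + 1) → B)) P with hX
  have hXj : X j = polyEval (U j) P :=
    map_polyEval ⟨Pi.evalAlgHom ℂ (fun _ => B) j, fun _ => rfl⟩ _ P
  have hcomp : star (r j) * Φ X * r j = X j := by
    show star (r j) * (∑ i, r i * X i * star (r i)) * r j = _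
    simp only [Finset.mul_sum, Finset.sum_mul]
    rw [Finset.sum_eq_single j]
    · rw [show star (r j) * (r j * X j * star (r j)) * r j =
        star (r j) * r j * X j * (star (r j) * r j) by noncomm_ring]
      simp [r, ht.blocks_ite]
    · intro i _ hij
      rw [show star (r j) * (r i * X i * star (r i)) * r j =
        star (r j) * r i * X i * (star (r i) * r j) by noncomm_ring]
      simp [r, ht.blocks_ite, hij.symm]
    · simp
  have hr : ‖r j‖ ≤ 1 := norm_le_one_of_isometry (by simp [r, ht.blocks_ite])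
  rw [← hXj, ← hcomp]
  refine (norm_mul_le _ _).trans ((mul_le_of_le_one_right (norm_nonneg _) hr).trans ?_)
  exact (norm_mul_le _ _).trans
    (mul_le_of_le_one_left (norm_nonneg _) ((norm_star (r j)).trans_le hr))

/-- A tuple of sequences dominating every tuple in every C*-algebra along any nontrivial
ultrafilter. -/
theorem exists_dominating [Nontrivial B] (ht : IsPair t) {ω : Ultrafilter ℕ}
    (hω : (ω : Filter ℕ) ≤ atTop) :
    ∃ g : Sym → UPow B ω, IsTuple g ∧ ∀ {C : Type v} [CStarAlgebra C] (h : Sym → C),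
      IsTuple h → ∀ P, ‖polyEval h P‖ ≤ ‖polyEval g P‖ := by
  classical
  obtain ⟨q, hq⟩ := exists_surjective_nat (List (Sym × Bool) →₀ ℚ × ℚ)
  have hnear : ∀ (n : ℕ) (k : Fin (n + 1)), ∃ U : Sym → B, IsTuple U ∧ ∀ V : Sym → B, IsTuple V →
      ‖polyEval V (ratPoly (q k))‖ ≤ ‖polyEval U (ratPoly (q k))‖ + 1 / (n + 1) := by
    intro n k
    set P := ratPoly (q k)
    set S : Set ℝ := {r | ∃ V : Sym → B, IsTuple V ∧ r = ‖polyEval V P‖}
    have hne : S.Nonempty := ⟨_, _, isTuple_default (B := B) ht, rfl⟩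
    have hbdd : BddAbove S := ⟨P.sum fun _ c => ‖c‖, by
      rintro _ ⟨V, hV, rfl⟩
      exact norm_polyEval_le hV P⟩
    obtain ⟨_, ⟨U, hU, rfl⟩, hlt⟩ :=
      exists_lt_of_lt_csSup hne (sub_lt_self (sSup S) (show (0 : ℝ) < 1 / (n + 1) by positivity))
    exact ⟨U, hU, fun V hV => (le_csSup hbdd ⟨V, hV, rfl⟩).trans (by linarith)⟩
  choose U hU hUmax using hnear
  choose W hW hWmax using fun n => exists_combined ht n (U n) (hU n)
  let seq : Sym → (ℕ →ᵇ B) := fun x =>
    BoundedContinuousFunction.ofNormedAddCommGroupDiscrete (fun n => W n x) 1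
      fun n => (hW n).norm_le x
  have hseq : IsTuple seq :=
    ⟨fun k => ⟨fun i => BoundedContinuousFunction.ext fun n => ((hW n).pair k).isometry i,
      BoundedContinuousFunction.ext fun n => ((hW n).pair k).sum_range⟩,
    fun k => (BoundedContinuousFunction.norm_le zero_le_one).2 fun n => (hW n).contraction k,
    fun k => ⟨BoundedContinuousFunction.ext fun n => ((hW n).unit k).1,
      BoundedContinuousFunction.ext fun n => ((hW n).unit k).2⟩⟩
  refine ⟨fun x => upowMk (seq x), hseq.map upowMk, fun {C} _ h hh P => ?_⟩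
  have hg : IsTuple fun x => (upowMk (seq x) : UPow B ω) := hseq.map upowMk
  have hrat : ∀ k, ‖polyEval h (ratPoly (q k))‖ ≤
      ‖polyEval (fun x => (upowMk (seq x) : UPow B ω)) (ratPoly (q k))‖ := by
    intro k
    set P' := ratPoly (q k)
    refine le_of_forall_pos_le_add fun ε hε => ?_
    by_contra hlt
    push Not at hlt
    rw [← map_polyEval upowMk] at hlt
    have hev := eventually_norm_lt_of_norm_mk_lt (ω := ω) (polyEval seq P')
      (show ‖upowMk (polyEval seq P')‖ < ‖polyEval h P'‖ - ε by linarith)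
    obtain ⟨n, ⟨hn1, hn2⟩, hn3⟩ := ((hev.and (hω (eventually_ge_atTop k))).and
      (hω (tendsto_one_div_add_atTop_nhds_zero_nat.eventually_lt_const (half_pos hε)))).exists
    obtain ⟨V, hV, hVn⟩ := exists_tuple_near ht hh P' (half_pos hε)
    have h1 := hUmax n ⟨k, Nat.lt_succ_of_le hn2⟩ V hV
    have h2 := hWmax n ⟨k, Nat.lt_succ_of_le hn2⟩ P'
    have h3 : (polyEval seq P') n = polyEval (W n) P' := map_polyEval (evalAt n) seq P'
    rw [h3] at hn1
    have hn3' : (1 : ℝ) / (n + 1) < ε / 2 := hn3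
    linarith
  refine le_of_forall_pos_le_add fun ε hε => ?_
  obtain ⟨Q, hQ⟩ := exists_ratPoly_near P (half_pos hε)
  obtain ⟨k, rfl⟩ := hq Q
  have h1 := (norm_polyEval_le hh (P - ratPoly (q k))).trans hQ
  have h2 := (norm_polyEval_le hg (P - ratPoly (q k))).trans hQ
  rw [polyEval_sub] at h1 h2
  have h3 := norm_sub_norm_le (polyEval h P) (polyEval h (ratPoly (q k)))
  have h4 := norm_sub_norm_le (polyEval (fun x => (upowMk (seq x) : UPow B ω)) (ratPoly (q k)))
    (polyEval (fun x => (upowMk (seq x) : UPow B ω)) P)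
  rw [norm_sub_rev] at h4
  have := hrat k
  linarith

/-- The universal algebra of countably many Cuntz pairs, contractions and unitaries is unitally a
subalgebra of the ultrapower. -/
theorem exists_universal_subalgebra [Nontrivial B] (ht : IsPair t) {ω : Ultrafilter ℕ}
    (hω : (ω : Filter ℕ) ≤ atTop) :
    ∃ g : Sym → UPow B ω, IsTuple g ∧ ∀ {C : Type v} [CStarAlgebra C] (h : Sym → C), IsTuple h →
      ∃! φ : (StarAlgebra.adjoin ℂ (Set.range g)).topologicalClosure →⋆ₐ[ℂ] C,
        ∀ (x : Sym) (hx : g x ∈ (StarAlgebra.adjoin ℂ (Set.range g)).topologicalClosure),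
          φ ⟨g x, hx⟩ = h x := by
  obtain ⟨g, hg, hdom⟩ := exists_dominating ht hω
  refine ⟨g, hg, fun {C} _ h hh => ?_⟩
  set A := (StarAlgebra.adjoin ℂ (Set.range g)).topologicalClosure with hA
  let R := StarAlgebra.adjoin ℂ (Set.range fun x => (g x, h x))
  let p₁ : R →⋆ₐ[ℂ] UPow B ω := (StarAlgHom.fst ℂ (UPow B ω) C).comp R.subtype
  let p₂ : R →⋆ₐ[ℂ] C := (StarAlgHom.snd ℂ (UPow B ω) C).comp R.subtype
  have hle : ∀ z, ‖p₂ z‖ ≤ ‖p₁ z‖ := by
    intro z
    obtain ⟨P, hP⟩ := exists_polyEval_eq _ z.2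
    have e1 : p₁ z = polyEval g P :=
      (congrArg _ hP.symm).trans (map_polyEval (StarAlgHom.fst ℂ (UPow B ω) C) _ P)
    have e2 : p₂ z = polyEval h P :=
      (congrArg _ hP.symm).trans (map_polyEval (StarAlgHom.snd ℂ (UPow B ω) C) _ P)
    rw [e1, e2]
    exact hdom h hh P
  obtain ⟨φ, hφ⟩ := Vale.Agent.P101.exists_dominated_hom p₁ p₂ hle
  have hsub : A ≤ p₁.range.topologicalClosure := by
    refine StarSubalgebra.topologicalClosure_mono (StarAlgebra.adjoin_le ?_)
    rintro _ ⟨x, rfl⟩
    exact ⟨⟨(g x, h x), StarAlgebra.subset_adjoin ℂ _ ⟨x, rfl⟩⟩, rfl⟩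
  refine ⟨φ.comp (StarSubalgebra.inclusion hsub), fun x hx => ?_, fun ψ hψ => ?_⟩
  · exact (hφ _).2 ⟨(g x, h x), StarAlgebra.subset_adjoin ℂ _ ⟨x, rfl⟩⟩ rfl
  · have hclosed : IsClosed (A : Set (UPow B ω)) := StarSubalgebra.isClosed_topologicalClosure _
    have : IsClosed (A : Set (UPow B ω)) := hclosed
    let := StarSubalgebra.cstarAlgebra A (h_closed := hclosed)
    have hc : ∀ f : A →⋆ₐ[ℂ] C, Continuous f := fun f =>
      AddMonoidHomClass.continuous_of_bound f 1 fun z => by
        simpa using NonUnitalStarAlgHom.norm_apply_le f z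
    refine StarAlgHom.ext_topologicalClosure (hc ψ) (hc _) ?_
    refine StarAlgHom.ext_adjoin ?_
    rintro ⟨_, hmem⟩ ⟨x, rfl⟩
    have hx : g x ∈ A := StarSubalgebra.le_topologicalClosure _ hmem
    exact (hψ x hx).trans
      ((hφ (StarSubalgebra.inclusion hsub ⟨g x, hx⟩)).2
        ⟨(g x, h x), StarAlgebra.subset_adjoin ℂ _ ⟨x, rfl⟩⟩ rfl).symm

/-- The universal algebra of countably many Cuntz pairs, contractions and unitaries embeds
unitally into the ultrapower. -/
theorem exists_universal_embedding {B : Type u} [CStarAlgebra B] [Nontrivial B] {t : Fin 2 → B}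
    (ht : IsPair t) {ω : Ultrafilter ℕ} (hω : (ω : Filter ℕ) ≤ atTop) :
    ∃ (A : Type u) (_ : CStarAlgebra A) (g : Sym → A) (ι : A →⋆ₐ[ℂ] UPow B ω),
      IsTuple g ∧ Function.Injective ι ∧ ∀ (C : Type v) [CStarAlgebra C] (h : Sym → C),
        IsTuple h → ∃! φ : A →⋆ₐ[ℂ] C, ∀ x, φ (g x) = h x := by
  obtain ⟨g, hg, hu⟩ := exists_universal_subalgebra.{v} ht hω
  set S := (StarAlgebra.adjoin ℂ (Set.range g)).topologicalClosure
  have hm : ∀ x, g x ∈ S := fun x =>
    StarSubalgebra.le_topologicalClosure _ (StarAlgebra.subset_adjoin ℂ _ ⟨x, rfl⟩)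
  let inst := StarSubalgebra.cstarAlgebra S
    (h_closed := StarSubalgebra.isClosed_topologicalClosure _)
  refine ⟨S, inst, fun x => ⟨g x, hm x⟩, S.subtype, ⟨fun k => ⟨fun i => Subtype.ext ?_,
    Subtype.ext ?_⟩, fun k => ?_, fun k => ⟨Subtype.ext ?_, Subtype.ext ?_⟩⟩,
    Subtype.val_injective, fun C _ h hh => ?_⟩
  · exact (hg.pair k).isometry i
  · exact (hg.pair k).sum_range
  · exact hg.contraction k
  · exact (hg.unit k).1
  · exact (hg.unit k).2
  · obtain ⟨φ, hφ, huniq⟩ := hu h hh
    exact ⟨φ, fun x => hφ x (hm x), fun ψ hψ => huniq ψ fun x _ => hψ x⟩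

end Vale.Agent.P083.Free
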