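import Vale.Agent.P083.Free.Code

/-!
P083: every representation of a Cuntz pair is, on finitely many vectors, almost a frame inside any
C*-algebra with a Cuntz pair.
-/

namespace Vale.Agent.P083.Free

open scoped InnerProductSpace ComplexOrder

variable {B : Type*} [CStarAlgebra B] {t : Fin 2 → B} {H : Type*} [NormedAddCommGroup H]
  [InnerProductSpace ℂ H] [CompleteSpace H] {s : Fin 2 → H →L[ℂ] H}

/-- The layers of the frame: `layer (n + 1) x = ∑ i, t i * layer n ((s i)* x)`. -/
noncomputable def layer (t : Fin 2 → B) (s : Fin 2 → H →L[ℂ] H) (W : H →ₗ[ℂ] B) :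
    ℕ → H →ₗ[ℂ] B
  | 0 => W
  | n + 1 => ∑ i, (LinearMap.mulLeft ℂ (t i)).comp ((layer t s W n).comp (star (s i)).toLinearMap)

theorem layer_succ (W : H →ₗ[ℂ] B) (n : ℕ) (x : H) :
    layer t s W (n + 1) x = ∑ i, t i * layer t s W n (star (s i) x) := by
  simp [layer]

variable (ht : IsPair t) (hs : IsPair s) {W : H →ₗ[ℂ] B}

include hs in
theorem star_apply_pair (i j : Fin 2) (x : H) :
    star (s i) (s j x) = if i = j then x else 0 := by
  have := congrArg (fun A : H →L[ℂ] H => A x) (hs.ite i j)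
  split_ifs with h
  · simpa [h] using this
  · simpa [h] using this

include hs in
theorem norm_pair_le (i : Fin 2) (x : H) : ‖s i x‖ ≤ ‖x‖ ∧ ‖star (s i) x‖ ≤ ‖x‖ := by
  have h1 := norm_le_one_of_isometry (hs.isometry i)
  have h2 : ‖star (s i)‖ ≤ 1 := (norm_star (s i)).trans_le h1
  exact ⟨(ContinuousLinearMap.le_opNorm _ x).trans (mul_le_of_le_one_left (norm_nonneg x) h1),
    (ContinuousLinearMap.le_opNorm _ x).trans (mul_le_of_le_one_left (norm_nonneg x) h2)⟩

include hs in
theorem sum_inner_pair (x y : H) :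
    ∑ i, ⟪star (s i) x, star (s i) y⟫_ℂ = ⟪x, y⟫_ℂ := by
  have e := congrArg (fun A : H →L[ℂ] H => ⟪x, A y⟫_ℂ) hs.sum_eq
  simp only [Fin.sum_univ_two, _root_.add_apply, mul_apply_eq_comp, one_apply_eq_self,
    inner_add_right] at e ⊢
  simp only [ContinuousLinearMap.star_eq_adjoint, ContinuousLinearMap.adjoint_inner_left] at e ⊢
  exact e

include hs in
theorem mul_layer (n : ℕ) (i : Fin 2) (x : H) :
    t i * layer t s W n x = layer t s W (n + 1) (s i x) := by
  simp [layer_succ, star_apply_pair hs, apply_ite (layer t s W n)]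

include ht in
theorem star_mul_layer (n : ℕ) (i : Fin 2) (x : H) :
    star (t i) * layer t s W (n + 1) x = layer t s W n (star (s i) x) := by
  rw [layer_succ, Finset.mul_sum]
  simp [← mul_assoc, ht.ite]

include ht in
theorem gram_succ (n : ℕ) (x y : H) :
    star (layer t s W (n + 1) x) * layer t s W (n + 1) y =
      ∑ i, star (layer t s W n (star (s i) x)) * layer t s W n (star (s i) y) := by
  rw [layer_succ (x := x), star_sum, Finset.sum_mul]
  refine Finset.sum_congr rfl fun i _ => ?_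
  rw [star_mul, mul_assoc, star_mul_layer ht]

include ht hs in
theorem norm_layer_le (hW : ∀ x, ∃ r : ℝ, r ≤ ‖x‖ ^ 2 ∧ star (W x) * W x = (r : ℂ) • (1 : B))
    (n : ℕ) (x : H) : ‖layer t s W n x‖ ≤ ‖x‖ := by
  have key : ∀ n x, ∃ r : ℝ, r ≤ ‖x‖ ^ 2 ∧
      star (layer t s W n x) * layer t s W n x = (r : ℂ) • (1 : B) := by
    intro n
    induction n with
    | zero => exact hW
    | succ n ih =>
      intro x
      choose r hr hr' using ih
      refine ⟨∑ i, r (star (s i) x), ?_, by
        rw [gram_succ ht]; simp only [hr', Complex.ofReal_sum, Finset.sum_smul]⟩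
      calc ∑ i, r (star (s i) x) ≤ ∑ i, ‖star (s i) x‖ ^ 2 := Finset.sum_le_sum fun i _ => hr _
        _ = ‖x‖ ^ 2 := by
          have := congrArg Complex.re (sum_inner_pair hs x x)
          simp only [Complex.re_sum, inner_self_eq_norm_sq_to_K] at this
          simpa [← Complex.ofReal_pow] using this
  obtain ⟨r, hr, hr'⟩ := key n x
  rcases subsingleton_or_nontrivial B with hB | hB
  · simp [Subsingleton.elim (layer t s W n x) 0]
  have h2 := CStarRing.norm_star_mul_self (x := layer t s W n x)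
  rw [hr', norm_smul, CStarRing.norm_one, mul_one, Complex.norm_real, Real.norm_eq_abs] at h2
  have hr0 : 0 ≤ r := by
    let := CStarAlgebra.spectralOrder B
    have := CStarAlgebra.spectralOrderedRing B
    have h0 := star_mul_self_nonneg (layer t s W n x)
    rw [hr', ← Algebra.algebraMap_eq_smul_one] at h0
    have hmem : (r : ℂ) ∈ spectrum ℂ (algebraMap ℂ B (r : ℂ)) := by
      simp [spectrum.scalar_eq]
    simpa using (Complex.le_def.1 (spectrum_nonneg_of_nonneg h0 hmem)).1
  rw [abs_of_nonneg hr0] at h2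
  nlinarith [norm_nonneg x, norm_nonneg (layer t s W n x)]

/-- The subspaces swept out by the adjoints. -/
noncomputable def orbit (s : Fin 2 → H →L[ℂ] H) (E : Submodule ℂ H) : ℕ → Submodule ℂ H
  | 0 => E
  | n + 1 => orbit s E n ⊔ (orbit s E n).map (star (s 0)).toLinearMap ⊔
      (orbit s E n).map (star (s 1)).toLinearMap

instance finiteDimensional_orbit (E : Submodule ℂ H) [FiniteDimensional ℂ E] :
    ∀ n, FiniteDimensional ℂ (orbit s E n)
  | 0 => inferInstanceAs (FiniteDimensional ℂ E)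
  | n + 1 => by
    have := finiteDimensional_orbit E n
    rw [orbit]
    infer_instance

omit [CompleteSpace H] in
theorem orbit_mono (E : Submodule ℂ H) [CompleteSpace H] {m n : ℕ} (h : m ≤ n) :
    orbit s E m ≤ orbit s E n :=
  monotone_nat_of_le_succ (f := orbit s E)
    (fun n => le_trans le_sup_left (le_sup_left (b := (orbit s E n).map _))) h

theorem star_mem_orbit (E : Submodule ℂ H) {n : ℕ} {x : H} (hx : x ∈ orbit s E n) (i : Fin 2) :
    star (s i) x ∈ orbit s E (n + 1) := by
  fin_cases i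
  · exact Submodule.mem_sup_left (Submodule.mem_sup_right (Submodule.mem_map_of_mem
      (f := (star (s 0)).toLinearMap) hx))
  · exact Submodule.mem_sup_right (Submodule.mem_map_of_mem (f := (star (s 1)).toLinearMap) hx)

include ht hs in
theorem gram_layer (E : Submodule ℂ H) {L : ℕ}
    (hW : ∀ x ∈ orbit s E L, ∀ y ∈ orbit s E L, star (W x) * W y = ⟪x, y⟫_ℂ • (1 : B)) :
    ∀ n M, M + n ≤ L → ∀ x ∈ orbit s E M, ∀ y ∈ orbit s E M,
      star (layer t s W n x) * layer t s W n y = ⟪x, y⟫_ℂ • (1 : B)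
  | 0, M, h, x, hx, y, hy =>
    hW x (orbit_mono E (by omega) hx) y (orbit_mono E (by omega) hy)
  | n + 1, M, h, x, hx, y, hy => by
    rw [gram_succ ht, ← sum_inner_pair hs x y, Finset.sum_smul]
    exact Finset.sum_congr rfl fun i _ => gram_layer E hW n (M + 1) (by omega) _
      (star_mem_orbit E hx i) _ (star_mem_orbit E hy i)

section Coded

variable {L : ℕ} {Y : H → B} (hY : ∀ x, W x = code t L * Y x)

include ht hY in
theorem code_mul_layer : ∀ m j, m ≤ j → j < L + m → ∀ y,
    star (code t j) * layer t s W m y = 0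
  | 0, j, _, hj, y => by
    simp only [layer, hY, ← mul_assoc, ht.code_ite, if_neg (show ¬ j = L by omega), zero_mul]
  | m + 1, j + 1, hm, hj, y => by
    have ih := code_mul_layer m j (by omega) (by omega)
    have e : star (code t (j + 1)) = star (code t j) * star (t 0) := by
      simp [code, pow_succ', star_mul, mul_assoc]
    rw [e, mul_assoc, star_mul_layer ht, ih]

include ht hY in
theorem orth_layer : ∀ n m, n < m → m ≤ L → ∀ x y,
    star (layer t s W n x) * layer t s W m y = 0
  | 0, m, hm, hL, x, y => by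
    simp only [layer, hY, star_mul, mul_assoc]
    rw [code_mul_layer ht hY m L hL (by omega), mul_zero]
  | n + 1, m + 1, hm, hL, x, y => by
    rw [layer_succ (x := x), star_sum, Finset.sum_mul]
    refine Finset.sum_eq_zero fun i _ => ?_
    rw [star_mul, mul_assoc, star_mul_layer ht, orth_layer n m (by omega) (by omega)]

include ht hY in
theorem room_layer (hL : 0 < L) : ∀ n p, n < p → ∀ y, star (t 1 ^ p) * layer t s W n y = 0
  | 0, p + 1, _, y => by
    obtain ⟨l, rfl⟩ : ∃ l, L = l + 1 := ⟨L - 1, by omega⟩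
    simp only [layer, hY, code, pow_succ', star_mul, mul_assoc]
    rw [← mul_assoc (star (t 1)) (t 0), ht.orth.2, zero_mul, mul_zero]
  | n + 1, p + 1, h, y => by
    rw [pow_succ', star_mul, mul_assoc, star_mul_layer ht,
      room_layer hL n p (by omega)]

end Coded

include ht hs in
/-- A frame almost intertwining the two pairs. -/
theorem exists_pair_frame (E : Submodule ℂ H) [FiniteDimensional ℂ E] {δ : ℝ} (hδ : 0 < δ) :
    ∃ J : E →ₗ[ℂ] B, IsFrame J ∧ ∀ (i : Fin 2) (x y : E),
      (s i x = y → ‖t i * J x - J y‖ ≤ δ * ‖x‖) ∧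
      (star (s i) x = y → ‖star (t i) * J x - J y‖ ≤ δ * ‖x‖) := by
  obtain ⟨L₀, hL₀⟩ := exists_nat_gt ((2 / δ) ^ 2)
  obtain ⟨l, hlL, hl⟩ : ∃ l : ℕ, L₀ ≤ l + 1 ∧ 2 / δ ≤ Real.sqrt ((l + 1 : ℕ) : ℝ) := by
    refine ⟨L₀, by omega, Real.le_sqrt_of_sq_le (hL₀.le.trans ?_)⟩
    push_cast
    linarith
  set L := l + 1 with hLdef
  have hLpos : (0 : ℝ) < Real.sqrt (L : ℝ) := Real.sqrt_pos.2 (by positivity)
  let F := orbit s E L
  let e := stdOrthonormalBasis ℂ F
  let Y : H →ₗ[ℂ] B :=
    { toFun := fun x => ∑ a, ⟪(e a : H), x⟫_ℂ • code t (a : ℕ)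
      map_add' := fun x y => by simp only [inner_add_right, add_smul, Finset.sum_add_distrib]
      map_smul' := fun c x => by
        simp only [inner_smul_right, mul_smul, Finset.smul_sum, RingHom.id_apply] }
  let W : H →ₗ[ℂ] B := (LinearMap.mulLeft ℂ (code t L)).comp Y
  have hY : ∀ x, W x = code t L * Y x := fun x => rfl
  have hWW : ∀ x y, star (W x) * W y = (∑ a, ⟪x, (e a : H)⟫_ℂ * ⟪(e a : H), y⟫_ℂ) • (1 : B) := by
    intro x y
    simp only [hY, star_mul]
    rw [mul_assoc, ← mul_assoc (star (code t L)), ht.code_ite, if_pos rfl, one_mul]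
    simp only [Y, LinearMap.coe_mk, AddHom.coe_mk, star_sum, star_smul, Finset.sum_mul,
      Finset.mul_sum, smul_mul_assoc, mul_smul_comm, ht.code_ite, smul_ite, smul_zero]
    simp only [Fin.val_inj, Finset.sum_ite_eq', Finset.mem_univ, if_true, smul_smul,
      ← Finset.sum_smul]
    congr 1
    refine Finset.sum_congr rfl fun a _ => ?_
    rw [← inner_conj_symm x (e a : H)]
    exact mul_comm _ _
  have hW1 : ∀ x ∈ F, ∀ y ∈ F, star (W x) * W y = ⟪x, y⟫_ℂ • (1 : B) := fun x hx y hy => by
    rw [hWW]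
    congr 1
    exact (e.sum_inner_mul_inner ⟨x, hx⟩ ⟨y, hy⟩)
  have hW2 : ∀ x, ∃ r : ℝ, r ≤ ‖x‖ ^ 2 ∧ star (W x) * W x = (r : ℂ) • (1 : B) := fun x => by
    refine ⟨∑ a, ‖⟪(e a : H), x⟫_ℂ‖ ^ 2,
      (F.subtypeₗᵢ.orthonormal_comp_iff.2 e.orthonormal).sum_inner_products_le x, ?_⟩
    rw [hWW, Complex.ofReal_sum]
    congr 1
    refine Finset.sum_congr rfl fun a _ => ?_
    rw [← inner_conj_symm x (e a : H), Complex.conj_mul']
    push_cast
    rfl
  have hnorm := norm_layer_le ht hs hW2
  set c : ℝ := (Real.sqrt (L : ℝ))⁻¹ with hc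
  have hc0 : 0 ≤ c := inv_nonneg.2 hLpos.le
  have hc2 : (c : ℂ) * c * L = 1 := by
    rw [← Complex.ofReal_natCast, ← Complex.ofReal_mul, ← Complex.ofReal_mul,
      show c * c * (L : ℝ) = 1 by
        rw [hc, ← mul_inv, Real.mul_self_sqrt (Nat.cast_nonneg L)]
        exact inv_mul_cancel₀ (by positivity), Complex.ofReal_one]
  let J : H →ₗ[ℂ] B := (c : ℂ) • ∑ n ∈ Finset.range L, layer t s W n
  have hJ : ∀ x, J x = (c : ℂ) • ∑ n ∈ Finset.range L, layer t s W n x := fun x => by simp [J]
  have hcδ : c * 2 ≤ δ := by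
    rw [hc, inv_mul_le_iff₀ hLpos]
    have := (div_le_iff₀ hδ).1 hl
    linarith
  have err : ∀ a b : B, ∀ x : H, ‖a‖ ≤ ‖x‖ → ‖b‖ ≤ ‖x‖ →
      ‖(c : ℂ) • (a - b)‖ ≤ δ * ‖x‖ := fun a b x ha hb => by
    rw [norm_smul, Complex.norm_real, Real.norm_of_nonneg hc0]
    calc c * ‖a - b‖ ≤ c * (2 * ‖x‖) :=
          mul_le_mul_of_nonneg_left ((norm_sub_le a b).trans (by linarith)) hc0
      _ ≤ δ * ‖x‖ := by rw [← mul_assoc]; exact mul_le_mul_of_nonneg_right hcδ (norm_nonneg x)
  refine ⟨J.comp E.subtype, ⟨fun x y => ?_, t 1 ^ L, ht.star_pow_mul_pow 1 L, fun x => ?_⟩,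
    fun i x y => ⟨fun hxy => ?_, fun hxy => ?_⟩⟩
  · simp only [LinearMap.comp_apply, Submodule.subtype_apply, hJ, star_smul, smul_mul_assoc,
      mul_smul_comm, star_sum, Finset.sum_mul, Finset.mul_sum, Complex.star_def,
      Complex.conj_ofReal, Finset.smul_sum, smul_smul]
    have inner_eq : ∀ n ∈ Finset.range L, ∀ m ∈ Finset.range L,
        star (layer t s W n x) * layer t s W m y =
          if n = m then ⟪x, y⟫_ℂ • (1 : B) else 0 := by
      intro n hn m hm
      rw [Finset.mem_range] at hn hm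
      rcases lt_trichotomy n m with h | rfl | h
      · rw [if_neg h.ne, orth_layer ht hY n m h hm.le]
      · rw [if_pos rfl]
        exact gram_layer ht hs E hW1 n 0 (by omega) x x.2 y y.2
      · rw [if_neg h.ne']
        simpa using congrArg star (orth_layer (t := t) (s := s) (W := W) ht hY m n h hn.le y x)
    rw [Finset.sum_congr rfl fun m hm => Finset.sum_congr rfl fun n hn => by
      rw [inner_eq n hn m hm]]
    simp only [smul_ite, smul_zero, Finset.sum_ite_eq', smul_smul]
    rw [Finset.sum_congr rfl fun m hm => if_pos hm, Finset.sum_const, Finset.card_range,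
      ← Nat.cast_smul_eq_nsmul ℂ, smul_smul]
    congr 1
    rw [Submodule.coe_inner]
    linear_combination ⟪(x : H), (y : H)⟫_ℂ * hc2
  · simp only [LinearMap.comp_apply, hJ, Finset.mul_sum, mul_smul_comm]
    rw [Finset.sum_eq_zero fun n hn =>
      room_layer ht hY l.succ_pos n L (Finset.mem_range.1 hn) _, smul_zero]
  · have e1 : t i * J (x : H) - J (y : H) =
        (c : ℂ) • (layer t s W L (y : H) - layer t s W 0 (y : H)) := by
      simp only [hJ, mul_smul_comm, Finset.mul_sum, mul_layer hs, hxy, ← smul_sub]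
      rw [← Finset.sum_range_sub (fun n => layer t s W n (y : H)), Finset.sum_sub_distrib]
    rw [LinearMap.comp_apply, LinearMap.comp_apply, Submodule.subtype_apply,
      Submodule.subtype_apply, e1]
    have hyx : ‖(y : H)‖ ≤ ‖(x : H)‖ := hxy ▸ (norm_pair_le hs i x).1
    exact err _ _ _ ((hnorm _ _).trans hyx) ((hnorm _ _).trans hyx)
  · have e1 : star (t i) * J (x : H) - J (y : H) =
        (c : ℂ) • (star (t i) * layer t s W 0 (x : H) - layer t s W l (y : H)) := by
      simp only [hJ, mul_smul_comm, Finset.mul_sum, ← smul_sub, hLdef]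
      rw [Finset.sum_range_succ' (n := l), Finset.sum_range_succ (n := l)]
      simp only [star_mul_layer ht, hxy]
      congr 1
      abel
    rw [LinearMap.comp_apply, LinearMap.comp_apply, Submodule.subtype_apply,
      Submodule.subtype_apply, e1]
    refine err _ _ _ ((norm_mul_le _ _).trans ?_)
      ((hnorm _ _).trans (hxy ▸ (norm_pair_le hs i x).2))
    exact (mul_le_of_le_one_left (norm_nonneg _)
      ((norm_star (t i)).trans_le (norm_le_one_of_isometry (ht.isometry i)))).trans (hnorm _ _)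

end Vale.Agent.P083.Free
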